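import Vale.Agent.Lib.P302.Core

/-!
A checker for a lower bound on the number of bins. The data are: a dual vector, a finite abelian
group given by linear forms modulo the entries of a list, a potential on that group and the list
of group moves made by the configurations of small waste.
-/

namespace Vale.Agent.Lib.P302

/-- The integer combination of a vector of multiplicities with a vector of weights. -/
def lin : List ℕ → (ℕ → ℕ) → ℕ
  | [], _ => 0
  | x :: tl, c => c 0 * x + lin tl (fun i => c (i + 1))

theorem lin_add (w : List ℕ) (c d : ℕ → ℕ) :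
    lin w (fun i => c i + d i) = lin w c + lin w d := by
  induction w generalizing c d with
  | nil => rfl
  | cons x tl ih =>
    simp only [lin]
    rw [ih (fun i => c (i + 1)) (fun i => d (i + 1))]
    ring

theorem lin_zero (w : List ℕ) : lin w (fun _ => 0) = 0 := by
  induction w with
  | nil => rfl
  | cons x tl ih => simp [lin, ih]

theorem lin_eq_sum (w : List ℕ) (c : ℕ → ℕ) :
    lin w c = ∑ i : Fin w.length, c i * w.get i := by
  induction w generalizing c with
  | nil => rfl
  | cons x tl ih =>
    show c 0 * x + lin tl (fun i => c (i + 1)) = ∑ i : Fin (tl.length + 1), c i * (x :: tl).get i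
    rw [Fin.sum_univ_succ, ih]
    rfl

theorem lin_map_eq_sum {α : Type} (l : List α) (f : α → ℕ) (c : ℕ → ℕ) :
    lin (l.map f) c = ∑ i : Fin l.length, c i * f (l.get i) := by
  induction l generalizing c with
  | nil => rfl
  | cons x tl ih =>
    show c 0 * f x + lin (tl.map f) (fun i => c (i + 1))
      = ∑ i : Fin (tl.length + 1), c i * f ((x :: tl).get i)
    rw [Fin.sum_univ_succ, ih]
    rfl

theorem lin_replicate (n : ℕ) (c : ℕ → ℕ) :
    lin (List.replicate n 1) c = ∑ i : Fin n, c i := by
  induction n generalizing c with
  | zero => rfl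
  | succ n ih =>
    show c 0 * 1 + lin (List.replicate n 1) (fun i => c (i + 1)) = _
    rw [Fin.sum_univ_succ, ih, mul_one]
    rfl

theorem lin_sum {k : ℕ} (w : List ℕ) (c : Fin k → ℕ → ℕ) :
    lin w (fun i => ∑ j, c j i) = ∑ j, lin w (c j) := by
  induction k with
  | zero => simp [lin_zero]
  | succ k ih =>
    simp only [Fin.sum_univ_succ]
    rw [lin_add, ih]

/-- `a + k c`, coordinatewise, with missing coordinates read as `0`. -/
def vadd (k : ℕ) : List ℕ → List ℕ → List ℕ
  | [], c => c.map (fun x => k * x)
  | a :: as, [] => a :: as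
  | a :: as, c :: cs => (a + k * c) :: vadd k as cs

/-- Reduction of the coordinates modulo the entries of the first list. -/
def redu : List ℕ → List ℕ → List ℕ
  | [], _ => []
  | d :: ds, a => (a.headD 0 % d) :: redu ds a.tail

/-- Coordinate `j` of a vector, with missing coordinates read as `0`. -/
def toF (l : List ℕ) (j : ℕ) : ℕ := l.getD j 0

theorem toF_zero (l : List ℕ) : toF l 0 = l.headD 0 := by
  cases l <;> simp [toF]

theorem toF_succ (l : List ℕ) (j : ℕ) : toF l (j + 1) = toF l.tail j := by
  cases l <;> simp [toF]

theorem toF_vadd (k : ℕ) (a c : List ℕ) (j : ℕ) :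
    toF (vadd k a c) j = toF a j + k * toF c j := by
  induction a generalizing c j with
  | nil =>
    induction c generalizing j with
    | nil => simp [vadd, toF]
    | cons x cs ih =>
      cases j with
      | zero => simp [vadd, toF]
      | succ j =>
        have := ih j
        simpa [vadd, toF] using this
  | cons y as ih =>
    cases c with
    | nil => simp [vadd, toF]
    | cons x cs =>
      cases j with
      | zero => simp [vadd, toF]
      | succ j =>
        have := ih cs j
        simpa [vadd, toF] using this

/-- If two vectors agree coordinatewise, they have the same reduction. -/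
theorem redu_congr (ds a b : List ℕ) (h : ∀ j, toF a j = toF b j) : redu ds a = redu ds b := by
  induction ds generalizing a b with
  | nil => rfl
  | cons d ds ih =>
    simp only [redu]
    have h0 : a.headD 0 = b.headD 0 := by
      rw [← toF_zero, ← toF_zero]; exact h 0
    rw [h0, ih a.tail b.tail (fun j => by rw [← toF_succ, ← toF_succ]; exact h (j + 1))]

/-- Adding reduced vectors and reducing again is the reduction of the sum. -/
theorem redu_add (ds a b : List ℕ) :
    redu ds (vadd 1 (redu ds a) (redu ds b)) = redu ds (vadd 1 a b) := by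
  induction ds generalizing a b with
  | nil => rfl
  | cons d ds ih =>
    have hh : ∀ x y : List ℕ, (vadd 1 x y).headD 0 = x.headD 0 + y.headD 0 := by
      intro x y
      rw [← toF_zero, toF_vadd, toF_zero, toF_zero, one_mul]
    have ht : ∀ j (x y : List ℕ), toF (vadd 1 x y).tail j = toF (vadd 1 x.tail y.tail) j := by
      intro j x y
      rw [← toF_succ, toF_vadd, toF_vadd, toF_succ, toF_succ]
    simp only [redu]
    rw [hh, hh, Nat.add_mod (a.headD 0) (b.headD 0) d]
    have e1 : redu ds (vadd 1 (a.headD 0 % d :: redu ds a.tail) (b.headD 0 % d :: redu ds b.tail)).tail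
        = redu ds (vadd 1 (redu ds a.tail) (redu ds b.tail)) :=
      redu_congr ds _ _ (fun j => by rw [ht]; rfl)
    have e2 : redu ds (vadd 1 a b).tail = redu ds (vadd 1 a.tail b.tail) :=
      redu_congr ds _ _ (fun j => ht j a b)
    rw [e1, e2, ih]
    simp

/-- Check a property on all reduced vectors. -/
def allOf : List ℕ → (List ℕ → Bool) → Bool
  | [], f => f []
  | d :: ds, f => (List.range d).all fun v => allOf ds (fun l => f (v :: l))

theorem allOf_sound (ds : List ℕ) (hds : ∀ d ∈ ds, 0 < d) (f : List ℕ → Bool)
    (h : allOf ds f = true) (x : List ℕ) : f (redu ds x) = true := by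
  induction ds generalizing f x with
  | nil => simpa [allOf, redu] using h
  | cons d ds ih =>
    simp only [allOf, List.all_eq_true, List.mem_range] at h
    have hd : 0 < d := hds d (by simp)
    have h1 := h (x.headD 0 % d) (Nat.mod_lt _ hd)
    exact ih (fun e he => hds e (by simp [he])) _ h1 x.tail

/-- The data of the checker. One item is a triple of size, dual value and class vector. -/
structure Cert where
  /-- capacity -/
  L : ℕ
  /-- denominator of the dual values -/
  D : ℕ
  /-- waste budget -/
  W : ℕ
  /-- number of bins -/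
  K : ℕ
  /-- sizes of the types -/
  sizes : List ℕ
  /-- dual values of the types -/
  duals : List ℕ
  /-- class vectors of the types -/
  forms : List (List ℕ)
  /-- moduli of the group -/
  ds : List ℕ
  /-- the group moves of configurations with waste at most `W` -/
  moves : List (ℕ × List ℕ)
  /-- the table of the potential -/
  table : ℕ
  /-- bits per table entry -/
  width : ℕ
  /-- bound on the ratio of dual value to size -/
  num : ℕ
  /-- bound on the ratio of dual value to size -/
  den : ℕ
  /-- the multiplicities of the types -/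
  counts : List ℕ

/-- index of a reduced vector in the table -/
def encIdx : List ℕ → List ℕ → ℕ → ℕ
  | [], _, acc => acc
  | d :: ds, l, acc => encIdx ds l.tail (acc * d + l.headD 0)

/-- the potential of a reduced vector -/
def Cert.pot (C : Cert) (g : List ℕ) : ℕ :=
  (C.table >>> (C.width * encIdx C.ds g 0)) % 2 ^ C.width

/-- the test at a leaf of the enumeration of configurations -/
def Cert.leafOK (C : Cert) (y : ℕ) (acc : List ℕ) : Bool :=
  Nat.ble y C.D &&
    (Nat.ble (C.W + 1) (C.D - y) ||
      C.moves.any fun m => Nat.beq m.1 (C.D - y) && m.2 == redu C.ds acc)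

/-- enumeration of all configurations; a branch is cut off when the bound on the dual value shows
that its waste exceeds the budget -/
def Cert.enumC (C : Cert) : List ℕ → List ℕ → List (List ℕ) → ℕ → ℕ → List ℕ → Bool
  | [], _, _, _, y, acc => C.leafOK y acc
  | s :: ss, yy :: ys, f :: fs, rem, y, acc =>
    Nat.ble (y * C.den + rem * C.num + C.W * C.den + 1) (C.D * C.den) ||
      (List.range (rem / s + 1)).all fun k =>
        C.enumC ss ys fs (rem - k * s) (y + k * yy) (vadd k acc f)
  | _ :: _, _, _, _, _, _ => false

/-- the sum of the class vectors of a configuration -/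
def accOf : List (List ℕ) → (ℕ → ℕ) → List ℕ → List ℕ
  | [], _, acc => acc
  | f :: fs, c, acc => accOf fs (fun i => c (i + 1)) (vadd (c 0) acc f)

theorem toF_accOf (fs : List (List ℕ)) (c : ℕ → ℕ) (acc : List ℕ) (j : ℕ) :
    toF (accOf fs c acc) j = toF acc j + lin (fs.map (fun f => toF f j)) c := by
  induction fs generalizing c acc with
  | nil => simp [accOf, lin]
  | cons f fs ih =>
    simp only [accOf, List.map_cons, lin]
    rw [ih, toF_vadd]
    ring

/-- Soundness of the enumeration. -/
theorem Cert.enumC_sound (C : Cert) (ss ys : List ℕ) (fs : List (List ℕ))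
    (hlen : ss.length = ys.length ∧ ss.length = fs.length)
    (hpos : ∀ s ∈ ss, 0 < s)
    (hratio : ∀ c : ℕ → ℕ, lin ys c * C.den ≤ lin ss c * C.num) (_hden : 0 < C.den)
    (rem y : ℕ) (acc : List ℕ) (h : C.enumC ss ys fs rem y acc = true)
    (c : ℕ → ℕ) (hc : lin ss c ≤ rem) :
    C.leafOK (y + lin ys c) (accOf fs c acc) = true := by
  induction ss generalizing ys fs rem y acc c with
  | nil =>
    obtain ⟨h1, h2⟩ := hlen
    have hy : ys = [] := List.length_eq_zero_iff.mp h1.symm
    have hf : fs = [] := List.length_eq_zero_iff.mp h2.symm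
    subst hy; subst hf
    simpa [Cert.enumC, lin, accOf] using h
  | cons s ss ih =>
    obtain ⟨h1, h2⟩ := hlen
    cases ys with
    | nil => simp at h1
    | cons yy ys =>
      cases fs with
      | nil => simp at h2
      | cons f fs =>
        simp only [Cert.enumC, Bool.or_eq_true, List.all_eq_true, List.mem_range] at h
        rcases h with h | h
        · -- the branch is cut off
          have hb := Nat.le_of_ble_eq_true h
          have hr := hratio c
          have hr2 : lin (s :: ss) c * C.num ≤ rem * C.num := Nat.mul_le_mul_right _ hc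
          have hfin : (y + lin (yy :: ys) c) * C.den + C.W * C.den + 1 ≤ C.D * C.den := by
            have : (y + lin (yy :: ys) c) * C.den = y * C.den + lin (yy :: ys) c * C.den := by ring
            omega
          have hlt : y + lin (yy :: ys) c + C.W + 1 ≤ C.D := by
            have h3 : (y + lin (yy :: ys) c + C.W) * C.den < C.D * C.den := by
              have : (y + lin (yy :: ys) c + C.W) * C.den
                  = (y + lin (yy :: ys) c) * C.den + C.W * C.den := by ring
              omega
            have := Nat.lt_of_mul_lt_mul_right h3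
            omega
          simp only [Cert.leafOK, Bool.and_eq_true, Bool.or_eq_true]
          refine ⟨Nat.ble_eq_true_of_le (by omega), Or.inl (Nat.ble_eq_true_of_le (by omega))⟩
        · have hc0 : c 0 * s + lin ss (fun i => c (i + 1)) ≤ rem := hc
          have hs : 0 < s := hpos s (by simp)
          have hk : c 0 < rem / s + 1 := by
            have : c 0 ≤ rem / s := by
              rw [Nat.le_div_iff_mul_le hs]
              omega
            omega
          have h3 := h (c 0) hk
          have := ih ys fs ⟨by simpa using h1, by simpa using h2⟩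
            (fun t ht => hpos t (by simp [ht]))
            (fun d => by
              have h4 := hratio (fun i => match i with | 0 => 0 | n + 1 => d n)
              simpa [lin] using h4)
            _ _ _ h3 (fun i => c (i + 1)) (by omega)
          simp only [accOf, lin]
          have e : y + (c 0 * yy + lin ys fun i => c (i + 1))
              = y + c 0 * yy + lin ys fun i => c (i + 1) := by ring
          rw [e]
          exact this

/-- the pointwise bound on the ratio of dual value to size -/
def ratioOK (num den : ℕ) : List ℕ → List ℕ → Bool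
  | s :: ss, y :: ys => Nat.ble (y * den) (s * num) && ratioOK num den ss ys
  | [], [] => true
  | _, _ => false

theorem ratioOK_sound (num den : ℕ) (ss ys : List ℕ) (h : ratioOK num den ss ys = true)
    (c : ℕ → ℕ) : lin ys c * den ≤ lin ss c * num := by
  induction ss generalizing ys c with
  | nil =>
    cases ys with
    | nil => simp [lin]
    | cons y ys => simp [ratioOK] at h
  | cons s ss ih =>
    cases ys with
    | nil => simp [ratioOK] at h
    | cons y ys =>
      simp only [ratioOK, Bool.and_eq_true] at h
      have h1 := Nat.le_of_ble_eq_true h.1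
      have h2 := ih ys h.2 (fun i => c (i + 1))
      simp only [lin]
      have e1 : (c 0 * y + lin ys fun i => c (i + 1)) * den
          = c 0 * (y * den) + (lin ys fun i => c (i + 1)) * den := by ring
      have e2 : (c 0 * s + lin ss fun i => c (i + 1)) * num
          = c 0 * (s * num) + (lin ss fun i => c (i + 1)) * num := by ring
      rw [e1, e2]
      exact Nat.add_le_add (Nat.mul_le_mul_left _ h1) h2

/-- the multiplicity vector as a function -/
def Cert.bF (C : Cert) (i : ℕ) : ℕ := C.counts.getD i 0

/-- the moves are sorted by increasing waste -/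
def sortedMoves : List (ℕ × List ℕ) → Bool
  | [] => true
  | [_] => true
  | m :: n :: ms => Nat.ble m.1 n.1 && sortedMoves (n :: ms)

theorem sortedMoves_head (m n : ℕ × List ℕ) (ms : List (ℕ × List ℕ))
    (h : sortedMoves (m :: ms) = true) (hn : n ∈ ms) : m.1 ≤ n.1 := by
  induction ms generalizing m with
  | nil => simp at hn
  | cons k ks ih =>
    simp only [sortedMoves, Bool.and_eq_true] at h
    have h1 := Nat.le_of_ble_eq_true h.1
    rcases List.mem_cons.mp hn with rfl | hn'
    · exact h1
    · exact h1.trans (ih k h.2 hn')

theorem sortedMoves_tail (m : ℕ × List ℕ) (ms : List (ℕ × List ℕ))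
    (h : sortedMoves (m :: ms) = true) : sortedMoves ms = true := by
  cases ms with
  | nil => rfl
  | cons k ks =>
    simp only [sortedMoves, Bool.and_eq_true] at h
    exact h.2

/-- the potential does not grow by more than the waste along the given moves from the reduced
vector `g` of potential `p`; the test stops at the first move exceeding the budget -/
def Cert.checkMoves (C : Cert) (p : ℕ) (g : List ℕ) : List (ℕ × List ℕ) → Bool
  | [] => true
  | m :: ms => Nat.ble (C.W + 1) (p + m.1) ||
      (Nat.ble (C.pot (redu C.ds (vadd 1 g m.2))) (p + m.1) && C.checkMoves p g ms)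

theorem Cert.checkMoves_sound (C : Cert) (p : ℕ) (g : List ℕ) (ms : List (ℕ × List ℕ))
    (hs : sortedMoves ms = true) (h : C.checkMoves p g ms = true) (m : ℕ × List ℕ) (hm : m ∈ ms) :
    C.W + 1 ≤ p + m.1 ∨ C.pot (redu C.ds (vadd 1 g m.2)) ≤ p + m.1 := by
  induction ms with
  | nil => simp at hm
  | cons k ks ih =>
    simp only [Cert.checkMoves, Bool.or_eq_true, Bool.and_eq_true] at h
    rcases h with h | ⟨h1, h2⟩
    · left
      have h3 := Nat.le_of_ble_eq_true h
      rcases List.mem_cons.mp hm with rfl | hm'
      · exact h3
      · have := sortedMoves_head k m ks hs hm'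
        omega
    · rcases List.mem_cons.mp hm with rfl | hm'
      · right; exact Nat.le_of_ble_eq_true h1
      · exact ih (sortedMoves_tail k ks hs) h2 hm'

/-- the closure property of the potential -/
def Cert.closureOK (C : Cert) : Bool :=
  allOf C.ds fun g =>
    Nat.ble (C.W + 1) (C.pot g) || C.checkMoves (C.pot g) g C.moves

/-- all the checks of the lower bound on the number of bins -/
structure Cert.Valid (C : Cert) : Prop where
  hlen1 : C.sizes.length = C.duals.length
  hlen2 : C.sizes.length = C.forms.length
  hlen3 : C.sizes.length = C.counts.length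
  hpos : ∀ s ∈ C.sizes, 0 < s
  hden : 0 < C.den
  hratio : ratioOK C.num C.den C.sizes C.duals = true
  henum : C.enumC C.sizes C.duals C.forms C.L 0 [] = true
  hds : ∀ d ∈ C.ds, 0 < d
  hsorted : sortedMoves C.moves = true
  hclosure : C.closureOK = true
  hpot0 : C.pot (redu C.ds []) = 0
  hlow : (C.K - 1) * C.D < lin C.duals C.bF
  hup : lin C.duals C.bF ≤ C.K * C.D
  hbudget : C.K * C.D - lin C.duals C.bF ≤ C.W
  hfinal : C.K * C.D - lin C.duals C.bF < C.pot (redu C.ds (accOf C.forms C.bF []))
  hK : 0 < C.K

/-- the potential along a family of bins -/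
theorem Cert.pot_le (C : Cert) (hC : C.Valid) (k : ℕ) (c : Fin k → ℕ → ℕ)
    (hc : ∀ j, lin C.sizes (c j) ≤ C.L)
    (hw : ∑ j, (C.D - lin C.duals (c j)) ≤ C.W) :
    C.pot (redu C.ds (accOf C.forms (fun i => ∑ j, c j i) [])) ≤ ∑ j, (C.D - lin C.duals (c j)) := by
  induction k with
  | zero =>
    have : redu C.ds (accOf C.forms (fun i => ∑ j : Fin 0, c j i) []) = redu C.ds [] := by
      apply redu_congr
      intro j
      rw [toF_accOf]
      simp [lin_zero, toF]
    rw [this, hC.hpot0]
    simp
  | succ k ih =>
    rw [Fin.sum_univ_succ] at hw ⊢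
    have ih' := ih (fun j => c j.succ) (fun j => hc j.succ) (by omega)
    have hleaf := C.enumC_sound C.sizes C.duals C.forms ⟨hC.hlen1, hC.hlen2⟩ hC.hpos
      (ratioOK_sound _ _ _ _ hC.hratio) hC.hden C.L 0 [] hC.henum (c 0) (hc 0)
    rw [zero_add] at hleaf
    simp only [Cert.leafOK, Bool.and_eq_true, Bool.or_eq_true, List.any_eq_true] at hleaf
    obtain ⟨-, hleaf⟩ := hleaf
    rcases hleaf with hleaf | ⟨m, hm, hm2⟩
    · have := Nat.le_of_ble_eq_true hleaf
      omega
    · simp only [beq_iff_eq] at hm2
      obtain ⟨hm1, hm2⟩ := hm2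
      have hm1' : m.1 = C.D - lin C.duals (c 0) := Nat.eq_of_beq_eq_true hm1
      set x := accOf C.forms (fun i => ∑ j : Fin k, c j.succ i) [] with hx
      have hcl := allOf_sound C.ds hC.hds _ hC.hclosure x
      simp only [Bool.or_eq_true] at hcl
      have h2 : C.W + 1 ≤ C.pot (redu C.ds x) + m.1 ∨
          C.pot (redu C.ds (vadd 1 (redu C.ds x) m.2)) ≤ C.pot (redu C.ds x) + m.1 := by
        rcases hcl with hcl | hcl
        · left
          have := Nat.le_of_ble_eq_true hcl
          omega
        · exact C.checkMoves_sound _ _ _ hC.hsorted hcl m hm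
      rcases h2 with h2 | h2
      · omega
      · have h3 := h2
        have e : redu C.ds (accOf C.forms (fun i => ∑ j : Fin (k + 1), c j i) [])
            = redu C.ds (vadd 1 (redu C.ds x) m.2) := by
          rw [hm2, redu_add]
          apply redu_congr
          intro j
          rw [toF_accOf, toF_vadd, hx, toF_accOf, toF_accOf]
          simp only [Fin.sum_univ_succ]
          have h0 : toF [] j = 0 := by simp [toF]
          rw [h0, lin_add (List.map (fun f => toF f j) C.forms) (c 0) (fun i => ∑ l : Fin k, c l.succ i)]
          ring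
        rw [e]
        omega

/-- The main property of a valid certificate: no family of at most `K` bins holds the multiset. -/
theorem Cert.no_packing (C : Cert) (hC : C.Valid) (k : ℕ) (hk : k ≤ C.K)
    (c : Fin k → ℕ → ℕ) (hc : ∀ j, lin C.sizes (c j) ≤ C.L)
    (hsum : (fun i => ∑ j, c j i) = C.bF) : False := by
  have hy : ∀ j, lin C.duals (c j) ≤ C.D := by
    intro j
    have hleaf := C.enumC_sound C.sizes C.duals C.forms ⟨hC.hlen1, hC.hlen2⟩ hC.hpos
      (ratioOK_sound _ _ _ _ hC.hratio) hC.hden C.L 0 [] hC.henum (c j) (hc j)
    rw [zero_add] at hleaf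
    simp only [Cert.leafOK, Bool.and_eq_true] at hleaf
    exact Nat.le_of_ble_eq_true hleaf.1
  have htot : ∑ j, lin C.duals (c j) = lin C.duals C.bF := by
    rw [← lin_sum, hsum]
  have hadd : ∑ j, (C.D - lin C.duals (c j)) + lin C.duals C.bF = k * C.D := by
    rw [← htot, ← Finset.sum_add_distrib]
    rw [Finset.sum_congr rfl (fun j _ => Nat.sub_add_cancel (hy j))]
    simp
  have hlow := hC.hlow
  have hKpos := hC.hK
  have hkK : k = C.K := by
    by_contra hne
    have hlt : k ≤ C.K - 1 := by omega
    have : k * C.D ≤ (C.K - 1) * C.D := Nat.mul_le_mul_right _ hlt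
    omega
  have hadd' : ∑ j, (C.D - lin C.duals (c j)) + lin C.duals C.bF = C.K * C.D := by
    rw [hadd, hkK]
  have hbud : ∑ j, (C.D - lin C.duals (c j)) = C.K * C.D - lin C.duals C.bF := by omega
  have h1 := C.pot_le hC k c hc (by rw [hbud]; exact hC.hbudget)
  rw [hsum, hbud] at h1
  have := hC.hfinal
  omega

/-- The fractional packing used in the upper bound on the LP. -/
structure Cert.Frac (C : Cert) (pats : List (List ℕ)) (wts : List ℕ) (q V : ℕ) : Prop where
  hq : 0 < q
  hL : 0 < C.L
  hle : ∀ s ∈ C.sizes, s ≤ C.L
  hnodup : C.sizes.Nodup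
  hcount : ∀ i, i < C.sizes.length → 0 < C.bF i
  hpat : ∀ p ∈ pats, lin C.sizes (fun i => p.getD i 0) ≤ C.L
  hcover : ∀ i, i < C.sizes.length →
    C.bF i * q ≤ lin (pats.map (fun p => p.getD i 0)) (fun k => wts.getD k 0)
  hval : lin (List.replicate pats.length 1) (fun k => wts.getD k 0) ≤ V

/-- The gap bound given by a certificate. -/
theorem Cert.gap (C : Cert) (hC : C.Valid) (pats : List (List ℕ)) (wts : List ℕ) (q V : ℕ)
    (hF : C.Frac pats wts q V) :
    ∃ a : List ℚ, (∀ x ∈ a, 0 < x ∧ x ≤ 1) ∧
      (C.K : ℝ) + 1 - (V : ℝ) / q ≤ (opt a : ℝ) - lp a := by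
  classical
  let s : Fin C.sizes.length → ℕ := fun i => C.sizes.get i
  have hqpos : (0 : ℚ) < q := by exact_mod_cast hF.hq
  obtain ⟨a, ha1, ha2⟩ := gap_of_counts s C.L hF.hL
    (fun i => ⟨hC.hpos _ (List.get_mem _ _), hF.hle _ (List.get_mem _ _)⟩)
    (List.nodup_iff_injective_get.mp hF.hnodup)
    (fun i => C.bF i) (fun i => hF.hcount i i.2) C.K
    (by
      intro k hk c hc1 hc2
      let cc : Fin k → ℕ → ℕ := fun j i => if h : i < C.sizes.length then c j ⟨i, h⟩ else 0
      have hcc : ∀ j (i : Fin C.sizes.length), cc j i = c j i := by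
        intro j i
        simp [cc]
      refine C.no_packing hC k hk cc ?_ ?_
      · intro j
        rw [lin_eq_sum]
        have := hc1 j
        simpa [hcc, s] using this
      · funext i
        by_cases hi : i < C.sizes.length
        · have := hc2 ⟨i, hi⟩
          simp only [cc, hi, dif_pos]
          exact this
        · have h0 : C.bF i = 0 := by
            have hlen := hC.hlen3
            have hnone : C.counts[i]? = none := List.getElem?_eq_none (by omega)
            simp [Cert.bF, List.getD_eq_getElem?_getD, hnone]
          rw [h0]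
          simp [cc, hi])
    pats.length (fun p i => (pats.get p).getD i 0)
    (by
      intro p
      have := hF.hpat (pats.get p) (List.get_mem _ _)
      rw [lin_eq_sum] at this
      exact this)
    (fun p => ((wts.getD p 0 : ℕ) : ℚ) / q)
    (fun p => by positivity)
    (by
      intro i
      have h1 := hF.hcover i i.2
      rw [lin_map_eq_sum] at h1
      have h2 : ∑ p : Fin pats.length, (((pats.get p).getD i 0 : ℕ) : ℚ) * (((wts.getD p 0 : ℕ) : ℚ) / q)
          = (∑ p : Fin pats.length, (((wts.getD p 0 * (pats.get p).getD i 0 : ℕ)) : ℚ)) / q := by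
        rw [Finset.sum_div]
        refine Finset.sum_congr rfl fun p _ => ?_
        push_cast
        ring
      rw [h2, le_div_iff₀ hqpos]
      exact_mod_cast h1)
  refine ⟨a, ha1, ?_⟩
  have hv : ∑ p : Fin pats.length, ((((wts.getD p 0 : ℕ) : ℚ) / q : ℚ) : ℝ) ≤ (V : ℝ) / q := by
    have h1 := hF.hval
    rw [lin_replicate] at h1
    have hqR : (0 : ℝ) < q := by exact_mod_cast hF.hq
    have h2 : ∑ p : Fin pats.length, ((((wts.getD p 0 : ℕ) : ℚ) / q : ℚ) : ℝ)
        = (∑ p : Fin pats.length, ((wts.getD p 0 : ℕ) : ℝ)) / q := by
      rw [Finset.sum_div]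
      refine Finset.sum_congr rfl fun p _ => ?_
      push_cast
      rfl
    rw [h2]
    apply div_le_div_of_nonneg_right _ hqR.le
    exact_mod_cast h1
  linarith

end Vale.Agent.Lib.P302
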