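import Vale.Agent.Lib.P302.Defs
import Mathlib.Algebra.BigOperators.Field
import Mathlib.Data.Rat.Cast.Order
import Mathlib.Data.Rat.BigOperators

namespace Vale.Agent.Lib.P302

open Finset

/-- A list all of whose items have size at most `1` fits into as many bins as it has items. -/
theorem packs_length (a : List ℚ) (ha : ∀ x ∈ a, x ≤ 1) : Packs a a.length := by
  refine ⟨fun i => i, fun j => ?_⟩
  have : (Finset.univ.filter (fun i : Fin a.length => i = j)) = {j} := by
    ext i; simp
  rw [this, Finset.sum_singleton]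
  exact ha _ (List.get_mem a j)

theorem le_opt_of_not_packs (a : List ℚ) (ha : ∀ x ∈ a, x ≤ 1) (K : ℕ)
    (h : ∀ k, k ≤ K → ¬ Packs a k) : K + 1 ≤ opt a := by
  have hne : {k | Packs a k}.Nonempty := ⟨_, packs_length a ha⟩
  have hmem : Packs a (opt a) := Nat.sInf_mem hne
  by_contra hlt
  exact h (opt a) (by omega) hmem

theorem lp_le (a : List ℚ) (v : ℝ) (hv : LPValue a v) : lp a ≤ v := by
  refine csInf_le ⟨0, ?_⟩ (show v ∈ {v | LPValue a v} from hv)
  rintro x ⟨m, c, z, -, hz, -, rfl⟩
  exact Finset.sum_nonneg (fun i _ => hz i)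

/-- Counting the occurrences of a value in a list through its positions. -/
theorem card_filter_get_eq_count (a : List ℚ) (σ : ℚ) :
    (Finset.univ.filter (fun i : Fin a.length => a.get i = σ)).card = a.count σ := by
  induction a with
  | nil => simp
  | cons x l ih =>
    rw [Finset.card_filter] at ih ⊢
    have h1 : ∑ i : Fin (x :: l).length, (if (x :: l).get i = σ then 1 else 0)
        = (if x = σ then 1 else 0)
          + ∑ i : Fin l.length, (if l.get i = σ then 1 else 0) := by
      show ∑ i : Fin (l.length + 1), (if (x :: l).get i = σ then 1 else 0) = _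
      rw [Fin.sum_univ_succ]
      rfl
    rw [h1, ih, List.count_cons]
    by_cases hx : x = σ
    · subst hx; simp; omega
    · simp [hx]

/-- The list with `b i` items of size `s i / L`, for `i` running over `Fin T`. -/
def mkList {T : ℕ} (s : Fin T → ℕ) (L : ℕ) (b : Fin T → ℕ) : List ℚ :=
  (List.finRange T).flatMap fun i => List.replicate (b i) ((s i : ℚ) / L)

theorem mem_mkList {T : ℕ} (s : Fin T → ℕ) (L : ℕ) (b : Fin T → ℕ) (x : ℚ) :
    x ∈ mkList s L b ↔ ∃ i, 0 < b i ∧ x = (s i : ℚ) / L := by
  simp only [mkList, List.mem_flatMap, List.mem_finRange, true_and, List.mem_replicate]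
  constructor
  · rintro ⟨i, h1, h2⟩; exact ⟨i, Nat.pos_of_ne_zero h1, h2⟩
  · rintro ⟨i, h1, h2⟩; exact ⟨i, h1.ne', h2⟩

theorem count_mkList {T : ℕ} (s : Fin T → ℕ) (L : ℕ) (hL : 0 < L) (hs : Function.Injective s)
    (b : Fin T → ℕ) (i : Fin T) : (mkList s L b).count ((s i : ℚ) / L) = b i := by
  have hv : ∀ j, (s i : ℚ) / L = (s j : ℚ) / L ↔ j = i := by
    intro j
    have hL' : (L : ℚ) ≠ 0 := by exact_mod_cast hL.ne'
    constructor
    · intro h
      have : (s i : ℚ) = s j := by
        field_simp at h; exact_mod_cast h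
      exact hs (by exact_mod_cast this.symm)
    · rintro rfl; rfl
  unfold mkList
  rw [List.count_flatMap]
  have key : ∀ l : List (Fin T), l.Nodup →
      (l.map (List.count ((s i : ℚ) / L) ∘ fun j => List.replicate (b j) ((s j : ℚ) / L))).sum
        = if i ∈ l then b i else 0 := by
    intro l
    induction l with
    | nil => simp
    | cons x l ih =>
      intro hn
      have hn' := List.nodup_cons.mp hn
      simp only [List.map_cons, List.sum_cons, Function.comp, List.mem_cons]
      rw [ih hn'.2]
      by_cases hxi : x = i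
      · subst hxi
        simp [hn'.1]
      · have : ¬ ((s i : ℚ) / L = (s x : ℚ) / L) := fun h => hxi ((hv x).mp h)
        have h' : ¬ ((s x : ℚ) / L = (s i : ℚ) / L) := fun h => this h.symm
        rw [List.count_replicate]
        simp only [beq_iff_eq, h', if_false, zero_add]
        by_cases hil : i ∈ l
        · simp [hil]
        · simp [hil, Ne.symm hxi]
  rw [key _ (List.nodup_finRange T)]
  simp

/-- A packing of a list of sizes `v i` gives one count vector per bin. -/
theorem counts_of_packs_aux {T : ℕ} (a : List ℚ) (v : Fin T → ℚ) (hv : Function.Injective v)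
    (hmem : ∀ x ∈ a, ∃ i, x = v i) (k : ℕ) (h : Packs a k) :
    ∃ c : Fin k → Fin T → ℕ, (∀ j, ∑ i, (c j i : ℚ) * v i ≤ 1) ∧ (∀ i, ∑ j, c j i = a.count (v i)) := by
  obtain ⟨f, hf⟩ := h
  classical
  have hτ : ∀ x : Fin a.length, ∃ i, a.get x = v i := fun x => hmem _ (List.get_mem a x)
  choose τ hτ using hτ
  have hτ' : ∀ x i, a.get x = v i ↔ τ x = i := by
    intro x i
    constructor
    · intro h
      exact hv ((hτ x).symm.trans h)
    · rintro rfl; exact hτ x
  refine ⟨fun j i => (Finset.univ.filter (fun x => f x = j ∧ τ x = i)).card, ?_, ?_⟩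
  · intro j
    have h1 := hf j
    have h2 : ∑ x ∈ Finset.univ.filter (fun x => f x = j), a.get x
        = ∑ i, ((Finset.univ.filter (fun x => f x = j ∧ τ x = i)).card : ℚ) * v i := by
      have : ∀ x ∈ Finset.univ.filter (fun x => f x = j), a.get x
          = ∑ i, if τ x = i then v i else 0 := by
        intro x _
        rw [Finset.sum_ite_eq]
        simp only [Finset.mem_univ, if_true]
        exact hτ x
      rw [Finset.sum_congr rfl this, Finset.sum_comm]
      refine Finset.sum_congr rfl fun i _ => ?_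
      rw [Finset.sum_ite, Finset.sum_const_zero, add_zero, Finset.sum_const, nsmul_eq_mul,
        Finset.filter_filter]
    rw [h2] at h1
    exact h1
  · intro i
    have h1 : ∑ j, (Finset.univ.filter (fun x => f x = j ∧ τ x = i)).card
        = (Finset.univ.filter (fun x => τ x = i)).card := by
      rw [Finset.card_eq_sum_card_fiberwise (f := f) (t := Finset.univ)
        (fun _ _ => Finset.mem_coe.2 (Finset.mem_univ _))]
      refine Finset.sum_congr rfl fun j _ => ?_
      rw [Finset.filter_filter]
      congr 1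
      ext x
      simp [and_comm]
    rw [h1]
    have h2 : (Finset.univ.filter (fun x => τ x = i)) =
        (Finset.univ.filter (fun x : Fin a.length => a.get x = v i)) := by
      ext x
      simp only [Finset.mem_filter, Finset.mem_univ, true_and]
      exact (hτ' x i).symm
    rw [h2, card_filter_get_eq_count]

/-- A packing of `mkList` gives one count vector per bin. -/
theorem counts_of_packs {T : ℕ} (s : Fin T → ℕ) (L : ℕ) (hL : 0 < L) (hs : Function.Injective s)
    (b : Fin T → ℕ) (k : ℕ) (h : Packs (mkList s L b) k) :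
    ∃ c : Fin k → Fin T → ℕ, (∀ j, ∑ i, c j i * s i ≤ L) ∧ (∀ i, ∑ j, c j i = b i) := by
  have hLq : (0 : ℚ) < L := by exact_mod_cast hL
  have hv : Function.Injective (fun i => (s i : ℚ) / L) := by
    intro i j h
    have hL' : (L : ℚ) ≠ 0 := hLq.ne'
    have h' : (s i : ℚ) / L = (s j : ℚ) / L := h
    have : (s i : ℚ) = s j := by
      field_simp at h'; exact_mod_cast h'
    exact hs (by exact_mod_cast this)
  obtain ⟨c, h1, h2⟩ := counts_of_packs_aux (mkList s L b) (fun i => (s i : ℚ) / L) hv
    (fun x hx => by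
      obtain ⟨i, -, hi⟩ := (mem_mkList s L b x).mp hx
      exact ⟨i, hi⟩) k h
  refine ⟨c, fun j => ?_, fun i => ?_⟩
  · have h3 := h1 j
    have h4 : ∑ i, (c j i : ℚ) * ((s i : ℚ) / L) = (∑ i, ((c j i * s i : ℕ) : ℚ)) / L := by
      rw [Finset.sum_div]
      refine Finset.sum_congr rfl fun i _ => ?_
      push_cast
      ring
    rw [h4, div_le_one hLq] at h3
    exact_mod_cast h3
  · rw [h2 i, count_mkList s L hL hs]

/-- The general reduction of the gap statement to a statement on count vectors. -/
theorem gap_of_counts {T : ℕ} (s : Fin T → ℕ) (L : ℕ) (hL : 0 < L) (hs : ∀ i, 0 < s i ∧ s i ≤ L)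
    (hinj : Function.Injective s) (b : Fin T → ℕ) (hb : ∀ i, 0 < b i) (K : ℕ)
    (nonpack : ∀ k, k ≤ K → ∀ c : Fin k → Fin T → ℕ,
      (∀ j, ∑ i, c j i * s i ≤ L) → (∀ i, ∑ j, c j i = b i) → False)
    (m : ℕ) (pat : Fin m → Fin T → ℕ) (hpat : ∀ p, ∑ i, pat p i * s i ≤ L)
    (z : Fin m → ℚ) (hz : ∀ p, 0 ≤ z p) (cover : ∀ i, (b i : ℚ) ≤ ∑ p, (pat p i : ℚ) * z p) :
    ∃ a : List ℚ, (∀ x ∈ a, 0 < x ∧ x ≤ 1) ∧
      (K : ℝ) + 1 - ∑ p, (z p : ℝ) ≤ (opt a : ℝ) - lp a := by
  classical
  have hLq : (0 : ℚ) < L := by exact_mod_cast hL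
  refine ⟨mkList s L b, ?_, ?_⟩
  · intro x hx
    obtain ⟨i, -, rfl⟩ := (mem_mkList s L b x).mp hx
    constructor
    · have : (0 : ℚ) < s i := by exact_mod_cast (hs i).1
      positivity
    · rw [div_le_one hLq]
      exact_mod_cast (hs i).2
  · set a := mkList s L b with ha
    have hv : Function.Injective (fun i => (s i : ℚ) / L) := by
      intro i j h
      have hL' : (L : ℚ) ≠ 0 := hLq.ne'
      have h' : (s i : ℚ) / L = (s j : ℚ) / L := h
      have : (s i : ℚ) = s j := by
        field_simp at h'; exact_mod_cast h'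
      exact hinj (by exact_mod_cast this)
    have hle1 : ∀ x ∈ a, x ≤ 1 := by
      intro x hx
      obtain ⟨i, -, rfl⟩ := (mem_mkList s L b x).mp hx
      rw [div_le_one hLq]
      exact_mod_cast (hs i).2
    have h1 : K + 1 ≤ opt a := by
      apply le_opt_of_not_packs a hle1
      intro k hk hp
      obtain ⟨c, hc1, hc2⟩ := counts_of_packs s L hL hinj b k hp
      exact nonpack k hk c hc1 hc2
    have hfs : a.toFinset = Finset.univ.image (fun i => (s i : ℚ) / L) := by
      ext x
      simp only [List.mem_toFinset, Finset.mem_image, Finset.mem_univ, true_and]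
      rw [ha, mem_mkList]
      constructor
      · rintro ⟨i, -, rfl⟩; exact ⟨i, rfl⟩
      · rintro ⟨i, rfl⟩; exact ⟨i, hb i, rfl⟩
    let cfg : Fin m → ℚ → ℕ := fun p σ => ∑ i, if σ = (s i : ℚ) / L then pat p i else 0
    have hcfg : ∀ p i, cfg p ((s i : ℚ) / L) = pat p i := by
      intro p i
      have : ∀ j, (if (s i : ℚ) / L = (s j : ℚ) / L then pat p j else 0)
          = if j = i then pat p j else 0 := by
        intro j
        by_cases hji : j = i
        · subst hji; simp
        · have : ¬ ((s i : ℚ) / L = (s j : ℚ) / L) := fun h => hji (hv h).symm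
          simp [this, hji]
      simp only [cfg, this]
      simp
    have h2 : LPValue a (∑ p, (z p : ℝ)) := by
      refine ⟨m, cfg, fun p => (z p : ℝ), ?_, ?_, ?_, rfl⟩
      · intro p
        unfold IsConfig
        rw [hfs, Finset.sum_image (fun i _ j _ h => hv h)]
        have : ∑ i, ((s i : ℚ) / L) * (cfg p ((s i : ℚ) / L) : ℚ)
            = (∑ i, ((pat p i * s i : ℕ) : ℚ)) / L := by
          rw [Finset.sum_div]
          refine Finset.sum_congr rfl fun i _ => ?_
          rw [hcfg]
          push_cast
          ring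
        rw [this, div_le_one hLq]
        have h3 := hpat p
        exact_mod_cast h3
      · intro p
        have := hz p
        show (0 : ℝ) ≤ ((z p : ℚ) : ℝ)
        exact_mod_cast this
      · intro σ hσ
        rw [hfs] at hσ
        obtain ⟨i, -, rfl⟩ := Finset.mem_image.mp hσ
        rw [ha, count_mkList s L hL hinj]
        simp only [hcfg]
        have := cover i
        have h4 : ((b i : ℚ) : ℝ) ≤ ((∑ p, (pat p i : ℚ) * z p : ℚ) : ℝ) := by exact_mod_cast this
        have h5 : ((∑ p, (pat p i : ℚ) * z p : ℚ) : ℝ) = ∑ p, (pat p i : ℝ) * (z p : ℝ) := by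
          rw [Rat.cast_sum]
          refine Finset.sum_congr rfl fun p _ => ?_
          rw [Rat.cast_mul, Rat.cast_natCast]
        rw [h5, Rat.cast_natCast] at h4
        exact h4
    have h3 := lp_le a _ h2
    have h4 : ((K : ℝ) + 1) ≤ (opt a : ℝ) := by exact_mod_cast h1
    linarith

end Vale.Agent.Lib.P302
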