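import Mathlib.Data.Real.Basic
import Mathlib.Algebra.BigOperators.Fin
import Mathlib.Order.ConditionallyCompleteLattice.Basic
import Mathlib.Order.Lattice.Nat
import Mathlib.Algebra.Order.Archimedean.Real.Basic
import Mathlib.Algebra.Order.BigOperators.Ring.Finset

/-!
Bin packing and the Gilmore-Gomory configuration LP for a list of rational item sizes.
-/

namespace Vale.Agent.Lib.P302

open Finset

/-- The items of the list `a` can be distributed over `k` bins so that every bin has total size
at most `1`. -/
def Packs (a : List ℚ) (k : ℕ) : Prop :=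
  ∃ f : Fin a.length → Fin k, ∀ j : Fin k,
    ∑ i ∈ Finset.univ.filter (fun i => f i = j), a.get i ≤ 1

/-- The least number of bins, `OPT`. -/
noncomputable def opt (a : List ℚ) : ℕ := sInf {k | Packs a k}

/-- A configuration for the list `a`: a multiplicity for every size, of total size at most `1`
when only the sizes occurring in `a` are counted. -/
def IsConfig (a : List ℚ) (c : ℚ → ℕ) : Prop :=
  ∑ σ ∈ a.toFinset, σ * (c σ : ℚ) ≤ 1

/-- `v` is the value of a feasible solution of the configuration LP: finitely many configurations
with non-negative real weights that cover each size at least as often as it occurs in `a`. -/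
def LPValue (a : List ℚ) (v : ℝ) : Prop :=
  ∃ (m : ℕ) (c : Fin m → ℚ → ℕ) (z : Fin m → ℝ),
    (∀ i, IsConfig a (c i)) ∧ (∀ i, 0 ≤ z i) ∧
    (∀ σ ∈ a.toFinset, (a.count σ : ℝ) ≤ ∑ i, (c i σ : ℝ) * z i) ∧
    v = ∑ i, z i

/-- The optimal value of the configuration LP. -/
noncomputable def lp (a : List ℚ) : ℝ := sInf {v | LPValue a v}

end Vale.Agent.Lib.P302
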