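import Vale.Agent.Lib.P302.Cert

/-!
Comparison of vectors packed into one natural number. A vector of `n` entries is stored in base
`2 ^ (k + 1)`; the top bit of every digit is used as a guard. The kernel computes with natural
numbers quickly, so this makes the closure check of the potential very cheap.
-/

namespace Vale.Agent.Lib.P302

/-- digit `i` in base `B` -/
def lane (B T i : ℕ) : ℕ := T / B ^ i % B

/-- the number `1 + B + ... + B ^ (n - 1)` -/
def ones (B n : ℕ) : ℕ := (B ^ n - 1) / (B - 1)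

theorem ones_zero (B : ℕ) : ones B 0 = 0 := by
  simp [ones]

theorem ones_aux {B : ℕ} (hB : 2 ≤ B) (n : ℕ) : ∃ q, B ^ n = 1 + (B - 1) * q ∧ ones B n = q ∧
    ones B (n + 1) = 1 + B * q := by
  have hB1 : 0 < B - 1 := by omega
  have key : ∀ m : ℕ, ∃ q, B ^ m = 1 + (B - 1) * q := by
    intro m
    induction m with
    | zero => exact ⟨0, by simp⟩
    | succ m ih =>
      obtain ⟨q, hq⟩ := ih
      refine ⟨1 + B * q, ?_⟩
      obtain ⟨C, rfl⟩ : ∃ C, B = C + 1 := ⟨B - 1, by omega⟩
      simp only [Nat.add_sub_cancel] at hq ⊢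
      rw [pow_succ, hq]
      ring
  obtain ⟨q, hq⟩ := key n
  have h1 : ones B n = q := by
    unfold ones
    rw [hq, Nat.add_sub_cancel_left, Nat.mul_div_cancel_left _ hB1]
  refine ⟨q, hq, h1, ?_⟩
  have h2 : B ^ (n + 1) = 1 + (B - 1) * (1 + B * q) := by
    obtain ⟨C, rfl⟩ : ∃ C, B = C + 1 := ⟨B - 1, by omega⟩
    simp only [Nat.add_sub_cancel] at hq ⊢
    rw [pow_succ, hq]
    ring
  unfold ones
  rw [h2, Nat.add_sub_cancel_left, Nat.mul_div_cancel_left _ hB1]

theorem ones_succ {B : ℕ} (hB : 2 ≤ B) (n : ℕ) : ones B (n + 1) = 1 + B * ones B n := by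
  obtain ⟨q, -, h1, h2⟩ := ones_aux hB n
  rw [h1, h2]

theorem lane_zero (B T : ℕ) : lane B T 0 = T % B := by
  simp [lane]

theorem lane_succ (B T i : ℕ) : lane B T (i + 1) = lane B (T / B) i := by
  unfold lane
  rw [Nat.div_div_eq_div_mul, pow_succ']

/-- a number below `2 ^ (k + 1)` without bit `k` is below `2 ^ k` -/
theorem lt_of_and_eq_zero {k s : ℕ} (hs : s < 2 ^ (k + 1)) (h : s &&& 2 ^ k = 0) : s < 2 ^ k := by
  by_contra hge
  have h1 : 2 ^ k ≤ s := Nat.le_of_not_lt hge
  have h2 : s.testBit k = true := Nat.testBit_of_two_pow_le_and_two_pow_add_one_gt h1 hs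
  have h3 : (s &&& 2 ^ k).testBit k = true := by
    rw [Nat.testBit_and, h2, Nat.testBit_two_pow]
    simp
  rw [h] at h3
  simp at h3

theorem and_mod_B {k a b : ℕ} (h : a &&& b = b) : (a % 2 ^ (k + 1)) &&& (b % 2 ^ (k + 1)) = b % 2 ^ (k + 1) := by
  rw [← Nat.and_mod_two_pow, h]

theorem and_div_B {k a b : ℕ} (h : a &&& b = b) : (a / 2 ^ (k + 1)) &&& (b / 2 ^ (k + 1)) = b / 2 ^ (k + 1) := by
  rw [← Nat.and_div_two_pow, h]

theorem and_mod_B0 {k a b : ℕ} (h : a &&& b = 0) : (a % 2 ^ (k + 1)) &&& (b % 2 ^ (k + 1)) = 0 := by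
  rw [← Nat.and_mod_two_pow, h]
  simp

theorem and_div_B0 {k a b : ℕ} (h : a &&& b = 0) : (a / 2 ^ (k + 1)) &&& (b / 2 ^ (k + 1)) = 0 := by
  rw [← Nat.and_div_two_pow, h]
  simp

/-- splitting the guard mask -/
theorem mask_succ (k n : ℕ) :
    2 ^ k * ones (2 ^ (k + 1)) (n + 1) = 2 ^ k + 2 ^ (k + 1) * (2 ^ k * ones (2 ^ (k + 1)) n) := by
  have hB : 2 ≤ 2 ^ (k + 1) := by
    calc 2 = 2 ^ 1 := rfl
      _ ≤ 2 ^ (k + 1) := Nat.pow_le_pow_right (by norm_num) (by omega)
  rw [ones_succ hB]
  ring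

theorem mask_mod (k n : ℕ) :
    (2 ^ k * ones (2 ^ (k + 1)) (n + 1)) % 2 ^ (k + 1) = 2 ^ k := by
  rw [mask_succ, Nat.add_mul_mod_self_left]
  exact Nat.mod_eq_of_lt (Nat.pow_lt_pow_right (by norm_num) (by omega))

theorem mask_div (k n : ℕ) :
    (2 ^ k * ones (2 ^ (k + 1)) (n + 1)) / 2 ^ (k + 1) = 2 ^ k * ones (2 ^ (k + 1)) n := by
  have hpos : 0 < 2 ^ (k + 1) := by positivity
  rw [mask_succ, Nat.add_mul_div_left _ _ hpos]
  have : 2 ^ k / 2 ^ (k + 1) = 0 :=
    Nat.div_eq_of_lt (Nat.pow_lt_pow_right (by norm_num) (by omega))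
  rw [this, zero_add]

/-- lanewise comparison -/
theorem lane_le (k n S R : ℕ) (hS : S < (2 ^ (k + 1)) ^ n) (hR : R < (2 ^ (k + 1)) ^ n)
    (h1 : S &&& (2 ^ k * ones (2 ^ (k + 1)) n) = 0)
    (h2 : R &&& (2 ^ k * ones (2 ^ (k + 1)) n) = 0)
    (h3 : (S + 2 ^ k * ones (2 ^ (k + 1)) n - R) &&& (2 ^ k * ones (2 ^ (k + 1)) n)
      = 2 ^ k * ones (2 ^ (k + 1)) n) :
    ∀ i, i < n → lane (2 ^ (k + 1)) R i ≤ lane (2 ^ (k + 1)) S i := by
  induction n generalizing S R with
  | zero => intro i hi; omega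
  | succ n ih =>
    intro i hi
    set B := 2 ^ (k + 1) with hBdef
    set h := 2 ^ k with hhdef
    have hBh : B = 2 * h := by rw [hBdef, hhdef, pow_succ]; ring
    have hhpos : 0 < h := by rw [hhdef]; positivity
    have hBpos : 0 < B := by omega
    set H' := h * ones B n with hH'
    have hH : h * ones B (n + 1) = h + B * H' := mask_succ k n
    have hmm : (h * ones B (n + 1)) % B = h := mask_mod k n
    have hmd : (h * ones B (n + 1)) / B = H' := mask_div k n
    -- digits of S and R
    have hs1 := and_mod_B0 (k := k) h1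
    have hs2 := and_div_B0 (k := k) h1
    have hr1 := and_mod_B0 (k := k) h2
    have hr2 := and_div_B0 (k := k) h2
    rw [← hBdef] at hs1 hs2 hr1 hr2
    rw [hmm] at hs1 hr1
    rw [hmd] at hs2 hr2
    have hslt : S % B < h := lt_of_and_eq_zero (Nat.mod_lt _ hBpos) hs1
    have hrlt : R % B < h := lt_of_and_eq_zero (Nat.mod_lt _ hBpos) hr1
    have hSd : S = S % B + B * (S / B) := (Nat.mod_add_div S B).symm
    have hRd : R = R % B + B * (R / B) := (Nat.mod_add_div R B).symm
    set s := S % B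
    set r := R % B
    set S' := S / B
    set R' := R / B
    -- the difference is not zero
    have hne : R < S + h * ones B (n + 1) := by
      by_contra hcon
      have h0 : S + h * ones B (n + 1) - R = 0 := by omega
      rw [h0, Nat.zero_and] at h3
      rw [hH] at h3
      omega
    have hRle : R' ≤ S' + H' := by
      by_contra hcon
      have h4 : S' + H' + 1 ≤ R' := by omega
      have h5 : B * (S' + H' + 1) ≤ B * R' := Nat.mul_le_mul_left _ h4
      have h6 : B * (S' + H' + 1) = B * S' + B * H' + B := by ring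
      rw [hH] at hne
      omega
    set E := S' + H' - R' with hE
    have hE2 : S' + H' = R' + E := by omega
    have hD : S + h * ones B (n + 1) - R = (s + h - r) + B * E := by
      rw [hH]
      have h7 : B * S' + B * H' = B * R' + B * E := by
        rw [← Nat.mul_add, ← Nat.mul_add, hE2]
      omega
    have hl : s + h - r < B := by omega
    have hDm : (S + h * ones B (n + 1) - R) % B = s + h - r := by
      rw [hD, Nat.add_mul_mod_self_left, Nat.mod_eq_of_lt hl]
    have hDd : (S + h * ones B (n + 1) - R) / B = E := by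
      rw [hD, Nat.add_mul_div_left _ _ hBpos, Nat.div_eq_of_lt hl, zero_add]
    have hd1 := and_mod_B (k := k) h3
    have hd2 := and_div_B (k := k) h3
    rw [← hBdef] at hd1 hd2
    rw [hmm, hDm] at hd1
    rw [hmd, hDd] at hd2
    have hrs : r ≤ s := by
      have := Nat.and_le_left (n := s + h - r) (m := h)
      rw [hd1] at this
      omega
    cases i with
    | zero =>
      rw [lane_zero, lane_zero]
      exact hrs
    | succ i =>
      rw [lane_succ, lane_succ]
      refine ih S' R' ?_ ?_ hs2 hr2 ?_ i (by omega)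
      · exact Nat.div_lt_of_lt_mul (by rw [← pow_succ']; exact hS)
      · exact Nat.div_lt_of_lt_mul (by rw [← pow_succ']; exact hR)
      · rw [← hE]
        exact hd2

/-- adding a constant to all entries -/
theorem lane_add (k n T c : ℕ) (hc : c < 2 ^ k)
    (h1 : T &&& (2 ^ k * ones (2 ^ (k + 1)) n) = 0) :
    ∀ i, i < n → lane (2 ^ (k + 1)) (T + c * ones (2 ^ (k + 1)) n) i = lane (2 ^ (k + 1)) T i + c := by
  induction n generalizing T with
  | zero => intro i hi; omega
  | succ n ih =>
    intro i hi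
    set B := 2 ^ (k + 1) with hBdef
    set h := 2 ^ k with hhdef
    have hBh : B = 2 * h := by rw [hBdef, hhdef, pow_succ]; ring
    have hhpos : 0 < h := by rw [hhdef]; positivity
    have hBpos : 0 < B := by omega
    have hB2 : 2 ≤ B := by omega
    have hmm : (h * ones B (n + 1)) % B = h := mask_mod k n
    have hmd : (h * ones B (n + 1)) / B = h * ones B n := mask_div k n
    have hs1 := and_mod_B0 (k := k) h1
    have hs2 := and_div_B0 (k := k) h1
    rw [← hBdef] at hs1 hs2
    rw [hmm] at hs1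
    rw [hmd] at hs2
    have hslt : T % B < h := lt_of_and_eq_zero (Nat.mod_lt _ hBpos) hs1
    have hTd : T = T % B + B * (T / B) := (Nat.mod_add_div T B).symm
    have hl : T % B + c < B := by omega
    have hsum : T + c * ones B (n + 1) = (T % B + c) + B * (T / B + c * ones B n) := by
      rw [ones_succ hB2]
      calc T + c * (1 + B * ones B n) = (T % B + B * (T / B)) + c * (1 + B * ones B n) := by
            rw [← hTd]
        _ = _ := by ring
    cases i with
    | zero =>
      rw [lane_zero, lane_zero, hsum, Nat.add_mul_mod_self_left, Nat.mod_eq_of_lt hl]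
    | succ i =>
      rw [lane_succ, lane_succ, hsum, Nat.add_mul_div_left _ _ hBpos, Nat.div_eq_of_lt hl, zero_add]
      exact ih (T / B) hs2 i (by omega)

/-- digits of the doubled vector -/
theorem lane_double {B : ℕ} (hB : 0 < B) {n T : ℕ} (hT : T < B ^ n) (j : ℕ) (hj : j < 2 * n) :
    lane B (T + T * B ^ n) j = lane B T (j % n) := by
  have hBn : 0 < B ^ n := pos_of_gt hT
  by_cases hjn : j < n
  · rw [Nat.mod_eq_of_lt hjn]
    unfold lane
    have hsplit : B ^ n = B ^ j * B * B ^ (n - j - 1) := by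
      rw [← pow_succ, ← pow_add]
      congr 1
      omega
    have hBj : 0 < B ^ j := by positivity
    have e : T + T * B ^ n = T + B ^ j * (B * (B ^ (n - j - 1) * T)) := by
      rw [hsplit]; ring
    rw [e, Nat.add_mul_div_left _ _ hBj, Nat.add_mul_mod_self_left]
  · have hj2 : j = n + (j - n) := by omega
    have hmod : j % n = j - n := by
      rw [Nat.mod_eq_sub_mod (by omega), Nat.mod_eq_of_lt (by omega)]
    rw [hmod]
    unfold lane
    have e1 : B ^ j = B ^ n * B ^ (j - n) := by
      rw [← pow_add]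
      congr 1
    rw [e1, ← Nat.div_div_eq_div_mul]
    have e2 : (T + T * B ^ n) / B ^ n = T := by
      rw [Nat.add_mul_div_right _ _ hBn, Nat.div_eq_of_lt hT, zero_add]
    rw [e2]

/-- digits of a rotated vector -/
theorem lane_rot {B : ℕ} (hB : 0 < B) {n T r x : ℕ} (hT : T < B ^ n) (hr : r < n) (hx : x < n) :
    lane B (((T + T * B ^ n) / B ^ r) % B ^ n) x = lane B T ((x + r) % n) := by
  have h0 : lane B (((T + T * B ^ n) / B ^ r) % B ^ n) x = lane B (T + T * B ^ n) (x + r) := by
    unfold lane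
    generalize T + T * B ^ n = X
    have hsplit : B ^ n = B ^ x * (B * B ^ (n - x - 1)) := by
      rw [← pow_succ', ← pow_add]
      congr 1
      omega
    rw [hsplit, Nat.mod_mul_right_div_self, Nat.mod_mul_right_mod, Nat.div_div_eq_div_mul,
      ← pow_add, Nat.add_comm r x]
  rw [h0]
  exact lane_double hB hT (x + r) (by omega)

/-- the test for one generator and one slice: each entry of the slice `T'`, rotated by `r`, is
at most the corresponding entry of the slice `T` plus `c` -/
def swarOK (k N O H c r T T' : ℕ) : Bool :=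
  let S := T + c * O
  let R := ((T' + T' <<< ((k + 1) * N)) >>> ((k + 1) * r)) &&& (2 ^ ((k + 1) * N) - 1)
  Nat.blt c (2 ^ k) && Nat.blt T' (2 ^ ((k + 1) * N)) && Nat.blt S (2 ^ ((k + 1) * N)) &&
    Nat.beq (T &&& H) 0 && Nat.beq (S &&& H) 0 && Nat.beq (R &&& H) 0 &&
    Nat.beq ((S + H - R) &&& H) H

theorem swarOK_sound {k N c r T T' : ℕ} (hr : r < N)
    (h : swarOK k N (ones (2 ^ (k + 1)) N) (2 ^ k * ones (2 ^ (k + 1)) N) c r T T' = true)
    (x : ℕ) (hx : x < N) :
    lane (2 ^ (k + 1)) T' ((x + r) % N) ≤ lane (2 ^ (k + 1)) T x + c := by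
  simp only [swarOK, Bool.and_eq_true, Nat.blt_eq] at h
  obtain ⟨⟨⟨⟨⟨⟨hc, hT'⟩, hS⟩, hT⟩, hSH⟩, hRH⟩, hD⟩ := h
  have hBpos : 0 < 2 ^ (k + 1) := by positivity
  have hT1 := Nat.eq_of_beq_eq_true hT
  have hS1 := Nat.eq_of_beq_eq_true hSH
  have hR1 := Nat.eq_of_beq_eq_true hRH
  have hD1 := Nat.eq_of_beq_eq_true hD
  rw [Nat.and_two_pow_sub_one_eq_mod, Nat.shiftRight_eq_div_pow, Nat.shiftLeft_eq] at hR1 hD1
  have hpow : 2 ^ ((k + 1) * N) = (2 ^ (k + 1)) ^ N := by rw [pow_mul]
  have hpowr : 2 ^ ((k + 1) * r) = (2 ^ (k + 1)) ^ r := by rw [pow_mul]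
  rw [hpow, hpowr] at hR1 hD1
  rw [hpow] at hT' hS
  set R := ((T' + T' * (2 ^ (k + 1)) ^ N) / (2 ^ (k + 1)) ^ r) % (2 ^ (k + 1)) ^ N with hR
  have hRlt : R < (2 ^ (k + 1)) ^ N := Nat.mod_lt _ (by positivity)
  have h1 := lane_le k N _ R hS hRlt hS1 hR1 hD1 x hx
  rw [lane_add k N T c hc hT1 x hx] at h1
  rw [hR, lane_rot hBpos hT' hr hx] at h1
  exact h1

theorem redu_redu (ds a : List ℕ) : redu ds (redu ds a) = redu ds a := by
  induction ds generalizing a with
  | nil => rfl
  | cons d ds ih => simp [redu, ih]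

/-- The data of the packed potential. The group is a cyclic group of order `N` times the group
with the moduli `bs`; the potential is stored as one packed vector for each element of the second
factor. -/
structure Swar where
  /-- the entries have `k + 1` bits -/
  k : ℕ
  /-- order of the cyclic factor -/
  N : ℕ
  /-- moduli of the other factor -/
  bs : List ℕ
  /-- the number with entries `1` -/
  O : ℕ
  /-- the number with entries `2 ^ k` -/
  H : ℕ
  /-- the packed vectors -/
  tables : List ℕ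
  /-- the generating moves -/
  gens : List (ℕ × List ℕ)
  /-- for each move of the certificate, a list of generating moves making it up -/
  paths : List (List ℕ)

/-- the packed vector belonging to an element of the second factor -/
def Swar.slice (Z : Swar) (b : List ℕ) : ℕ := Z.tables.getD (encIdx Z.bs b 0) 0

/-- the potential of a reduced vector -/
def Swar.pot (Z : Swar) (g : List ℕ) : ℕ := lane (2 ^ (Z.k + 1)) (Z.slice g.tail) (g.headD 0)

/-- the closure property of the potential for the generating moves -/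
def Swar.closureOK (Z : Swar) : Bool :=
  allOf Z.bs fun b => Z.gens.all fun m =>
    swarOK Z.k Z.N Z.O Z.H m.1 (m.2.headD 0 % Z.N) (Z.slice b)
      (Z.slice (redu Z.bs (vadd 1 b (redu Z.bs m.2.tail))))

theorem headD_vadd (a c : List ℕ) : (vadd 1 a c).headD 0 = a.headD 0 + c.headD 0 := by
  rw [← toF_zero, toF_vadd, toF_zero, toF_zero, one_mul]

theorem tail_vadd (bs a c : List ℕ) : redu bs (vadd 1 a c).tail = redu bs (vadd 1 a.tail c.tail) := by
  apply redu_congr
  intro j
  rw [← toF_succ, toF_vadd, toF_vadd, toF_succ, toF_succ]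

theorem Swar.closure (Z : Swar) (hN : 0 < Z.N) (hbs : ∀ d ∈ Z.bs, 0 < d)
    (hO : Z.O = ones (2 ^ (Z.k + 1)) Z.N) (hH : Z.H = 2 ^ Z.k * Z.O)
    (hcl : Z.closureOK = true) (m : ℕ × List ℕ) (hm : m ∈ Z.gens) (a : List ℕ) :
    Z.pot (redu (Z.N :: Z.bs) (vadd 1 a m.2)) ≤ Z.pot (redu (Z.N :: Z.bs) a) + m.1 := by
  have h := allOf_sound Z.bs hbs _ hcl a.tail
  rw [List.all_eq_true] at h
  have h2 := h m hm
  rw [hH, hO] at h2
  have hx : a.headD 0 % Z.N < Z.N := Nat.mod_lt _ hN
  have hr : m.2.headD 0 % Z.N < Z.N := Nat.mod_lt _ hN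
  have h3 := swarOK_sound hr h2 _ hx
  rw [redu_add] at h3
  have e : (a.headD 0 % Z.N + m.2.headD 0 % Z.N) % Z.N = (a.headD 0 + m.2.headD 0) % Z.N :=
    (Nat.add_mod _ _ _).symm
  rw [e] at h3
  simp only [Swar.pot, redu, List.tail_cons, List.headD_cons]
  rw [headD_vadd, tail_vadd]
  exact h3

/-- the sum of the class vectors of a list of generating moves -/
def Swar.pathVec (Z : Swar) : List ℕ → List ℕ
  | [] => []
  | i :: p => vadd 1 (Z.pathVec p) (Z.gens.getD i (0, [])).2

/-- the sum of the wastes of a list of generating moves -/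
def Swar.pathCost (Z : Swar) : List ℕ → ℕ
  | [] => 0
  | i :: p => (Z.gens.getD i (0, [])).1 + Z.pathCost p

/-- the test that a list of generating moves makes up a move -/
def Swar.moveOK (Z : Swar) (m : ℕ × List ℕ) (p : List ℕ) : Bool :=
  p.all (fun i => Nat.blt i Z.gens.length) && Nat.ble (Z.pathCost p) m.1 &&
    (redu (Z.N :: Z.bs) (Z.pathVec p) == redu (Z.N :: Z.bs) m.2)

/-- the test for all moves -/
def Swar.movesOK (Z : Swar) : List (ℕ × List ℕ) → List (List ℕ) → Bool
  | [], _ => true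
  | m :: ms, p :: ps => Z.moveOK m p && Z.movesOK ms ps
  | _ :: _, [] => false

theorem Swar.path_bound (Z : Swar) (hN : 0 < Z.N) (hbs : ∀ d ∈ Z.bs, 0 < d)
    (hO : Z.O = ones (2 ^ (Z.k + 1)) Z.N) (hH : Z.H = 2 ^ Z.k * Z.O)
    (hcl : Z.closureOK = true) (p : List ℕ) (hp : ∀ i ∈ p, i < Z.gens.length) (a : List ℕ) :
    Z.pot (redu (Z.N :: Z.bs) (vadd 1 a (Z.pathVec p))) ≤
      Z.pot (redu (Z.N :: Z.bs) a) + Z.pathCost p := by
  induction p with
  | nil =>
    have e : redu (Z.N :: Z.bs) (vadd 1 a (Z.pathVec [])) = redu (Z.N :: Z.bs) a := by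
      apply redu_congr
      intro j
      rw [toF_vadd]
      simp [Swar.pathVec, toF]
    rw [e]
    simp [Swar.pathCost]
  | cons i p ih =>
    have hi : i < Z.gens.length := hp i (by simp)
    have hm : Z.gens.getD i (0, []) ∈ Z.gens := by
      rw [List.getD_eq_getElem?_getD, List.getElem?_eq_getElem hi]
      exact List.getElem_mem hi
    have h1 := Z.closure hN hbs hO hH hcl _ hm (vadd 1 a (Z.pathVec p))
    have h2 := ih (fun j hj => hp j (by simp [hj]))
    have e : redu (Z.N :: Z.bs) (vadd 1 a (Z.pathVec (i :: p)))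
        = redu (Z.N :: Z.bs) (vadd 1 (vadd 1 a (Z.pathVec p)) (Z.gens.getD i (0, [])).2) := by
      apply redu_congr
      intro j
      simp only [Swar.pathVec, toF_vadd]
      ring
    rw [e]
    simp only [Swar.pathCost]
    omega

theorem Swar.move_bound (Z : Swar) (hN : 0 < Z.N) (hbs : ∀ d ∈ Z.bs, 0 < d)
    (hO : Z.O = ones (2 ^ (Z.k + 1)) Z.N) (hH : Z.H = 2 ^ Z.k * Z.O)
    (hcl : Z.closureOK = true) (ms : List (ℕ × List ℕ)) (ps : List (List ℕ))
    (h : Z.movesOK ms ps = true) (m : ℕ × List ℕ) (hm : m ∈ ms) (a : List ℕ) :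
    Z.pot (redu (Z.N :: Z.bs) (vadd 1 a m.2)) ≤ Z.pot (redu (Z.N :: Z.bs) a) + m.1 := by
  induction ms generalizing ps with
  | nil => simp at hm
  | cons k ks ih =>
    cases ps with
    | nil => simp [Swar.movesOK] at h
    | cons p ps =>
      simp only [Swar.movesOK, Bool.and_eq_true] at h
      rcases List.mem_cons.mp hm with rfl | hm'
      · obtain ⟨h1, -⟩ := h
        simp only [Swar.moveOK, Bool.and_eq_true, List.all_eq_true, Nat.blt_eq, beq_iff_eq] at h1
        obtain ⟨⟨h1, h2⟩, h3⟩ := h1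
        have h4 := Z.path_bound hN hbs hO hH hcl p h1 a
        have h5 := Nat.le_of_ble_eq_true h2
        have e : redu (Z.N :: Z.bs) (vadd 1 a m.2) = redu (Z.N :: Z.bs) (vadd 1 a (Z.pathVec p)) := by
          rw [← redu_add, ← h3, redu_add]
        rw [e]
        omega
      · exact ih ps h.2 hm'

/-- all the checks of the lower bound on the number of bins, with a packed potential -/
structure Swar.Valid (C : Cert) (Z : Swar) : Prop where
  hlen1 : C.sizes.length = C.duals.length
  hlen2 : C.sizes.length = C.forms.length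
  hlen3 : C.sizes.length = C.counts.length
  hpos : ∀ s ∈ C.sizes, 0 < s
  hden : 0 < C.den
  hratio : ratioOK C.num C.den C.sizes C.duals = true
  henum : C.enumC C.sizes C.duals C.forms C.L 0 [] = true
  hds : C.ds = Z.N :: Z.bs
  hN : 0 < Z.N
  hbs : ∀ d ∈ Z.bs, 0 < d
  hO : Z.O = ones (2 ^ (Z.k + 1)) Z.N
  hH : Z.H = 2 ^ Z.k * Z.O
  hclosure : Z.closureOK = true
  hmoves : Z.movesOK C.moves Z.paths = true
  hpot0 : Z.pot (redu C.ds []) = 0
  hlow : (C.K - 1) * C.D < lin C.duals C.bF
  hup : lin C.duals C.bF ≤ C.K * C.D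
  hbudget : C.K * C.D - lin C.duals C.bF ≤ C.W
  hfinal : C.K * C.D - lin C.duals C.bF < Z.pot (redu C.ds (accOf C.forms C.bF []))
  hK : 0 < C.K

/-- the potential along a family of bins -/
theorem Swar.pot_le (C : Cert) (Z : Swar) (hC : Swar.Valid C Z) (k : ℕ) (c : Fin k → ℕ → ℕ)
    (hc : ∀ j, lin C.sizes (c j) ≤ C.L)
    (hw : ∑ j, (C.D - lin C.duals (c j)) ≤ C.W) :
    Z.pot (redu C.ds (accOf C.forms (fun i => ∑ j, c j i) [])) ≤ ∑ j, (C.D - lin C.duals (c j)) := by
  induction k with
  | zero =>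
    have : redu C.ds (accOf C.forms (fun i => ∑ j : Fin 0, c j i) []) = redu C.ds [] := by
      apply redu_congr
      intro j
      rw [toF_accOf]
      simp [lin_zero, toF]
    rw [this, hC.hpot0]
    simp
  | succ k ih =>
    rw [Fin.sum_univ_succ] at hw ⊢
    have ih' := ih (fun j => c j.succ) (fun j => hc j.succ) (by omega)
    have hleaf := C.enumC_sound C.sizes C.duals C.forms ⟨hC.hlen1, hC.hlen2⟩ hC.hpos
      (ratioOK_sound _ _ _ _ hC.hratio) hC.hden C.L 0 [] hC.henum (c 0) (hc 0)
    rw [zero_add] at hleaf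
    simp only [Cert.leafOK, Bool.and_eq_true, Bool.or_eq_true, List.any_eq_true] at hleaf
    obtain ⟨-, hleaf⟩ := hleaf
    rcases hleaf with hleaf | ⟨m, hm, hm2⟩
    · have := Nat.le_of_ble_eq_true hleaf
      omega
    · simp only [beq_iff_eq] at hm2
      obtain ⟨hm1, hm2⟩ := hm2
      have hm1' : m.1 = C.D - lin C.duals (c 0) := Nat.eq_of_beq_eq_true hm1
      set x := accOf C.forms (fun i => ∑ j : Fin k, c j.succ i) [] with hx
      have h2 := Z.move_bound hC.hN hC.hbs hC.hO hC.hH hC.hclosure C.moves Z.paths hC.hmoves m hm x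
      rw [← hC.hds] at h2
      have e2 : redu C.ds (accOf C.forms (fun i => ∑ j : Fin (k + 1), c j i) [])
          = redu C.ds (vadd 1 x (accOf C.forms (c 0) [])) := by
        apply redu_congr
        intro j
        rw [toF_accOf, toF_vadd, hx, toF_accOf, toF_accOf]
        simp only [Fin.sum_univ_succ]
        have h0 : toF [] j = 0 := by simp [toF]
        rw [h0, lin_add (List.map (fun f => toF f j) C.forms) (c 0) (fun i => ∑ l : Fin k, c l.succ i)]
        ring
      have e : redu C.ds (accOf C.forms (fun i => ∑ j : Fin (k + 1), c j i) [])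
          = redu C.ds (vadd 1 x m.2) := by
        rw [e2, hm2]
        calc redu C.ds (vadd 1 x (accOf C.forms (c 0) []))
            = redu C.ds (vadd 1 (redu C.ds x) (redu C.ds (accOf C.forms (c 0) []))) :=
              (redu_add _ _ _).symm
          _ = redu C.ds (vadd 1 (redu C.ds x) (redu C.ds (redu C.ds (accOf C.forms (c 0) [])))) := by
              rw [redu_redu]
          _ = redu C.ds (vadd 1 x (redu C.ds (accOf C.forms (c 0) []))) := redu_add _ _ _
      rw [e]
      omega

/-- The main property of a valid certificate: no family of at most `K` bins holds the multiset. -/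
theorem Swar.no_packing (C : Cert) (Z : Swar) (hC : Swar.Valid C Z) (k : ℕ) (hk : k ≤ C.K)
    (c : Fin k → ℕ → ℕ) (hc : ∀ j, lin C.sizes (c j) ≤ C.L)
    (hsum : (fun i => ∑ j, c j i) = C.bF) : False := by
  have hy : ∀ j, lin C.duals (c j) ≤ C.D := by
    intro j
    have hleaf := C.enumC_sound C.sizes C.duals C.forms ⟨hC.hlen1, hC.hlen2⟩ hC.hpos
      (ratioOK_sound _ _ _ _ hC.hratio) hC.hden C.L 0 [] hC.henum (c j) (hc j)
    rw [zero_add] at hleaf
    simp only [Cert.leafOK, Bool.and_eq_true] at hleaf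
    exact Nat.le_of_ble_eq_true hleaf.1
  have htot : ∑ j, lin C.duals (c j) = lin C.duals C.bF := by
    rw [← lin_sum, hsum]
  have hadd : ∑ j, (C.D - lin C.duals (c j)) + lin C.duals C.bF = k * C.D := by
    rw [← htot, ← Finset.sum_add_distrib]
    rw [Finset.sum_congr rfl (fun j _ => Nat.sub_add_cancel (hy j))]
    simp
  have hlow := hC.hlow
  have hKpos := hC.hK
  have hkK : k = C.K := by
    by_contra hne
    have hlt : k ≤ C.K - 1 := by omega
    have : k * C.D ≤ (C.K - 1) * C.D := Nat.mul_le_mul_right _ hlt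
    omega
  have hadd' : ∑ j, (C.D - lin C.duals (c j)) + lin C.duals C.bF = C.K * C.D := by
    rw [hadd, hkK]
  have hbud : ∑ j, (C.D - lin C.duals (c j)) = C.K * C.D - lin C.duals C.bF := by omega
  have h1 := Swar.pot_le C Z hC k c hc (by rw [hbud]; exact hC.hbudget)
  rw [hsum, hbud] at h1
  have := hC.hfinal
  omega

/-- The gap bound given by a certificate. -/
theorem Swar.gap (C : Cert) (Z : Swar) (hC : Swar.Valid C Z) (pats : List (List ℕ)) (wts : List ℕ) (q V : ℕ)
    (hF : C.Frac pats wts q V) :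
    ∃ a : List ℚ, (∀ x ∈ a, 0 < x ∧ x ≤ 1) ∧
      (C.K : ℝ) + 1 - (V : ℝ) / q ≤ (opt a : ℝ) - lp a := by
  classical
  let s : Fin C.sizes.length → ℕ := fun i => C.sizes.get i
  have hqpos : (0 : ℚ) < q := by exact_mod_cast hF.hq
  obtain ⟨a, ha1, ha2⟩ := gap_of_counts s C.L hF.hL
    (fun i => ⟨hC.hpos _ (List.get_mem _ _), hF.hle _ (List.get_mem _ _)⟩)
    (List.nodup_iff_injective_get.mp hF.hnodup)
    (fun i => C.bF i) (fun i => hF.hcount i i.2) C.K
    (by
      intro k hk c hc1 hc2
      let cc : Fin k → ℕ → ℕ := fun j i => if h : i < C.sizes.length then c j ⟨i, h⟩ else 0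
      have hcc : ∀ j (i : Fin C.sizes.length), cc j i = c j i := by
        intro j i
        simp [cc]
      refine Swar.no_packing C Z hC k hk cc ?_ ?_
      · intro j
        rw [lin_eq_sum]
        have := hc1 j
        simpa [hcc, s] using this
      · funext i
        by_cases hi : i < C.sizes.length
        · have := hc2 ⟨i, hi⟩
          simp only [cc, hi, dif_pos]
          exact this
        · have h0 : C.bF i = 0 := by
            have hlen := hC.hlen3
            have hnone : C.counts[i]? = none := List.getElem?_eq_none (by omega)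
            simp [Cert.bF, List.getD_eq_getElem?_getD, hnone]
          rw [h0]
          simp [cc, hi])
    pats.length (fun p i => (pats.get p).getD i 0)
    (by
      intro p
      have := hF.hpat (pats.get p) (List.get_mem _ _)
      rw [lin_eq_sum] at this
      exact this)
    (fun p => ((wts.getD p 0 : ℕ) : ℚ) / q)
    (fun p => by positivity)
    (by
      intro i
      have h1 := hF.hcover i i.2
      rw [lin_map_eq_sum] at h1
      have h2 : ∑ p : Fin pats.length, (((pats.get p).getD i 0 : ℕ) : ℚ) * (((wts.getD p 0 : ℕ) : ℚ) / q)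
          = (∑ p : Fin pats.length, (((wts.getD p 0 * (pats.get p).getD i 0 : ℕ)) : ℚ)) / q := by
        rw [Finset.sum_div]
        refine Finset.sum_congr rfl fun p _ => ?_
        push_cast
        ring
      rw [h2, le_div_iff₀ hqpos]
      exact_mod_cast h1)
  refine ⟨a, ha1, ?_⟩
  have hv : ∑ p : Fin pats.length, ((((wts.getD p 0 : ℕ) : ℚ) / q : ℚ) : ℝ) ≤ (V : ℝ) / q := by
    have h1 := hF.hval
    rw [lin_replicate] at h1
    have hqR : (0 : ℝ) < q := by exact_mod_cast hF.hq
    have h2 : ∑ p : Fin pats.length, ((((wts.getD p 0 : ℕ) : ℚ) / q : ℚ) : ℝ)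
        = (∑ p : Fin pats.length, ((wts.getD p 0 : ℕ) : ℝ)) / q := by
      rw [Finset.sum_div]
      refine Finset.sum_congr rfl fun p _ => ?_
      push_cast
      rfl
    rw [h2]
    apply div_le_div_of_nonneg_right _ hqR.le
    exact_mod_cast h1
  linarith

end Vale.Agent.Lib.P302
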