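import Vale.Agent.Lib.P302.Swar

/-!
A faster enumeration of the configurations: the types are sorted by decreasing ratio of dual value
to size, so that the ratio of the current type bounds the dual value of the remaining capacity.
-/

namespace Vale.Agent.Lib.P302

/-- the ratio test for all suffixes of the lists -/
def ratioAll : List ℕ → List ℕ → Bool
  | s :: ss, y :: ys => ratioOK y s (s :: ss) (y :: ys) && ratioAll ss ys
  | [], [] => true
  | _, _ => false

/-- the function applied to the number; the match makes the kernel compute the number first -/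
def strict {α : Type} (n : ℕ) (f : ℕ → α) : α :=
  match n with
  | 0 => f 0
  | m + 1 => f (m + 1)

theorem strict_eq {α : Type} (n : ℕ) (f : ℕ → α) : strict n f = f n := by
  cases n <;> rfl

/-- the function applied to the list; the kernel computes the entries first -/
def forceL {α : Type} : List ℕ → (List ℕ → α) → α
  | [], f => f []
  | x :: xs, f => strict x fun x' => forceL xs fun xs' => f (x' :: xs')

theorem forceL_eq {α : Type} (l : List ℕ) (f : List ℕ → α) : forceL l f = f l := by
  induction l generalizing f with
  | nil => rfl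
  | cons x xs ih =>
    simp only [forceL, strict_eq, ih]

/-- equality test of lists -/
def listEq : List ℕ → List ℕ → Bool
  | [], [] => true
  | a :: as, b :: bs => Nat.beq a b && listEq as bs
  | _, _ => false

theorem listEq_sound (a b : List ℕ) (h : listEq a b = true) : a = b := by
  induction a generalizing b with
  | nil =>
    cases b with
    | nil => rfl
    | cons y ys => simp [listEq] at h
  | cons x xs ih =>
    cases b with
    | nil => simp [listEq] at h
    | cons y ys =>
      simp only [listEq, Bool.and_eq_true] at h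
      rw [Nat.eq_of_beq_eq_true h.1, ih ys h.2]

/-- search of a move -/
def anyMove (w : ℕ) (r : List ℕ) : List (ℕ × List ℕ) → Bool
  | [] => false
  | m :: ms => (Nat.beq m.1 w && listEq m.2 r) || anyMove w r ms

theorem anyMove_sound (w : ℕ) (r : List ℕ) (ms : List (ℕ × List ℕ)) (h : anyMove w r ms = true) :
    ∃ m ∈ ms, m.1 = w ∧ m.2 = r := by
  induction ms with
  | nil => simp [anyMove] at h
  | cons k ks ih =>
    simp only [anyMove, Bool.or_eq_true, Bool.and_eq_true] at h
    rcases h with ⟨h1, h2⟩ | h
    · exact ⟨k, by simp, Nat.eq_of_beq_eq_true h1, listEq_sound _ _ h2⟩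
    · obtain ⟨m, hm, hm2⟩ := ih h
      exact ⟨m, by simp [hm], hm2⟩

/-- the test at a leaf of the enumeration of configurations -/
def Cert.leafS (C : Cert) (y : ℕ) (acc : List ℕ) : Bool :=
  Nat.ble y C.D &&
    (Nat.ble (C.W + 1) (C.D - y) ||
      strict (C.D - y) fun w => forceL (redu C.ds acc) fun r => anyMove w r C.moves)

/-- what the test at a leaf says -/
theorem Cert.leafS_sound (C : Cert) (y : ℕ) (acc : List ℕ) (h : C.leafS y acc = true) :
    y ≤ C.D ∧ (C.W + 1 ≤ C.D - y ∨ ∃ m ∈ C.moves, m.1 = C.D - y ∧ m.2 = redu C.ds acc) := by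
  simp only [Cert.leafS, Bool.and_eq_true, Bool.or_eq_true, strict_eq, forceL_eq] at h
  refine ⟨Nat.le_of_ble_eq_true h.1, ?_⟩
  rcases h.2 with h2 | h2
  · exact Or.inl (Nat.le_of_ble_eq_true h2)
  · exact Or.inr (anyMove_sound _ _ _ h2)

/-- enumeration of all configurations; a branch is cut off when the ratio of the current type shows
that its waste exceeds the budget -/
def Cert.enumR (C : Cert) : List ℕ → List ℕ → List (List ℕ) → ℕ → ℕ → List ℕ → Bool
  | [], _, _, _, y, acc => C.leafS y acc
  | s :: ss, yy :: ys, f :: fs, rem, y, acc =>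
    Nat.ble ((y + C.W + 1) * s + rem * yy) (C.D * s) ||
      (List.range (rem / s + 1)).all fun k =>
        strict (rem - k * s) fun rem' => strict (y + k * yy) fun y' =>
          forceL (vadd k acc f) fun acc' => C.enumR ss ys fs rem' y' acc'
  | _ :: _, _, _, _, _, _ => false

/-- Soundness of the enumeration. -/
theorem Cert.enumR_sound (C : Cert) (ss ys : List ℕ) (fs : List (List ℕ))
    (hlen : ss.length = ys.length ∧ ss.length = fs.length)
    (hpos : ∀ s ∈ ss, 0 < s)
    (hratio : ratioAll ss ys = true)
    (rem y : ℕ) (acc : List ℕ) (h : C.enumR ss ys fs rem y acc = true)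
    (c : ℕ → ℕ) (hc : lin ss c ≤ rem) :
    C.leafS (y + lin ys c) (accOf fs c acc) = true := by
  induction ss generalizing ys fs rem y acc c with
  | nil =>
    obtain ⟨h1, h2⟩ := hlen
    have hy : ys = [] := List.length_eq_zero_iff.mp h1.symm
    have hf : fs = [] := List.length_eq_zero_iff.mp h2.symm
    subst hy; subst hf
    simpa [Cert.enumR, lin, accOf] using h
  | cons s ss ih =>
    obtain ⟨h1, h2⟩ := hlen
    cases ys with
    | nil => simp at h1
    | cons yy ys =>
      cases fs with
      | nil => simp at h2
      | cons f fs =>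
        simp only [ratioAll, Bool.and_eq_true] at hratio
        obtain ⟨hr0, hr1⟩ := hratio
        have hs : 0 < s := hpos s (by simp)
        simp only [Cert.enumR, Bool.or_eq_true, List.all_eq_true, List.mem_range, strict_eq,
          forceL_eq] at h
        rcases h with h | h
        · -- the branch is cut off
          have hb := Nat.le_of_ble_eq_true h
          have hr := ratioOK_sound _ _ _ _ hr0 c
          have hr2 : lin (s :: ss) c * yy ≤ rem * yy := Nat.mul_le_mul_right _ hc
          have h3 : (y + lin (yy :: ys) c + C.W + 1) * s ≤ C.D * s := by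
            calc (y + lin (yy :: ys) c + C.W + 1) * s
                = (y + C.W + 1) * s + lin (yy :: ys) c * s := by ring
              _ ≤ (y + C.W + 1) * s + rem * yy := by omega
              _ ≤ C.D * s := hb
          have hlt : y + lin (yy :: ys) c + C.W + 1 ≤ C.D := Nat.le_of_mul_le_mul_right h3 hs
          simp only [Cert.leafS, Bool.and_eq_true, Bool.or_eq_true]
          refine ⟨Nat.ble_eq_true_of_le (by omega), Or.inl (Nat.ble_eq_true_of_le (by omega))⟩
        · have hc0 : c 0 * s + lin ss (fun i => c (i + 1)) ≤ rem := hc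
          have hk : c 0 < rem / s + 1 := by
            have : c 0 ≤ rem / s := by
              rw [Nat.le_div_iff_mul_le hs]
              omega
            omega
          have h3 := h (c 0) hk
          have := ih ys fs ⟨by simpa using h1, by simpa using h2⟩
            (fun t ht => hpos t (by simp [ht])) hr1
            _ _ _ h3 (fun i => c (i + 1)) (by omega)
          simp only [accOf, lin]
          have e : y + (c 0 * yy + lin ys fun i => c (i + 1))
              = y + c 0 * yy + lin ys fun i => c (i + 1) := by ring
          rw [e]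
          exact this

/-- all the checks of the lower bound on the number of bins, with a packed potential and the sorted
enumeration -/
structure Swar.Valid2 (C : Cert) (Z : Swar) : Prop where
  hlen1 : C.sizes.length = C.duals.length
  hlen2 : C.sizes.length = C.forms.length
  hlen3 : C.sizes.length = C.counts.length
  hpos : ∀ s ∈ C.sizes, 0 < s
  hratio : ratioAll C.sizes C.duals = true
  henum : C.enumR C.sizes C.duals C.forms C.L 0 [] = true
  hds : C.ds = Z.N :: Z.bs
  hN : 0 < Z.N
  hbs : ∀ d ∈ Z.bs, 0 < d
  hO : Z.O = ones (2 ^ (Z.k + 1)) Z.N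
  hH : Z.H = 2 ^ Z.k * Z.O
  hclosure : Z.closureOK = true
  hmoves : Z.movesOK C.moves Z.paths = true
  hpot0 : Z.pot (redu C.ds []) = 0
  hlow : (C.K - 1) * C.D < lin C.duals C.bF
  hup : lin C.duals C.bF ≤ C.K * C.D
  hbudget : C.K * C.D - lin C.duals C.bF ≤ C.W
  hfinal : C.K * C.D - lin C.duals C.bF < Z.pot (redu C.ds (accOf C.forms C.bF []))
  hK : 0 < C.K

/-- the potential along a family of bins -/
theorem Swar.pot_le2 (C : Cert) (Z : Swar) (hC : Swar.Valid2 C Z) (k : ℕ) (c : Fin k → ℕ → ℕ)
    (hc : ∀ j, lin C.sizes (c j) ≤ C.L)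
    (hw : ∑ j, (C.D - lin C.duals (c j)) ≤ C.W) :
    Z.pot (redu C.ds (accOf C.forms (fun i => ∑ j, c j i) [])) ≤ ∑ j, (C.D - lin C.duals (c j)) := by
  induction k with
  | zero =>
    have : redu C.ds (accOf C.forms (fun i => ∑ j : Fin 0, c j i) []) = redu C.ds [] := by
      apply redu_congr
      intro j
      rw [toF_accOf]
      simp [lin_zero, toF]
    rw [this, hC.hpot0]
    simp
  | succ k ih =>
    rw [Fin.sum_univ_succ] at hw ⊢
    have ih' := ih (fun j => c j.succ) (fun j => hc j.succ) (by omega)
    have hleaf := C.enumR_sound C.sizes C.duals C.forms ⟨hC.hlen1, hC.hlen2⟩ hC.hpos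
      hC.hratio C.L 0 [] hC.henum (c 0) (hc 0)
    rw [zero_add] at hleaf
    obtain ⟨-, hleaf⟩ := C.leafS_sound _ _ hleaf
    rcases hleaf with hleaf | ⟨m, hm, hm1', hm2⟩
    · omega
    · set x := accOf C.forms (fun i => ∑ j : Fin k, c j.succ i) [] with hx
      have h2 := Z.move_bound hC.hN hC.hbs hC.hO hC.hH hC.hclosure C.moves Z.paths hC.hmoves m hm x
      rw [← hC.hds] at h2
      have e2 : redu C.ds (accOf C.forms (fun i => ∑ j : Fin (k + 1), c j i) [])
          = redu C.ds (vadd 1 x (accOf C.forms (c 0) [])) := by
        apply redu_congr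
        intro j
        rw [toF_accOf, toF_vadd, hx, toF_accOf, toF_accOf]
        simp only [Fin.sum_univ_succ]
        have h0 : toF [] j = 0 := by simp [toF]
        rw [h0, lin_add (List.map (fun f => toF f j) C.forms) (c 0) (fun i => ∑ l : Fin k, c l.succ i)]
        ring
      have e : redu C.ds (accOf C.forms (fun i => ∑ j : Fin (k + 1), c j i) [])
          = redu C.ds (vadd 1 x m.2) := by
        rw [e2, hm2]
        calc redu C.ds (vadd 1 x (accOf C.forms (c 0) []))
            = redu C.ds (vadd 1 (redu C.ds x) (redu C.ds (accOf C.forms (c 0) []))) :=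
              (redu_add _ _ _).symm
          _ = redu C.ds (vadd 1 (redu C.ds x) (redu C.ds (redu C.ds (accOf C.forms (c 0) [])))) := by
              rw [redu_redu]
          _ = redu C.ds (vadd 1 x (redu C.ds (accOf C.forms (c 0) []))) := redu_add _ _ _
      rw [e]
      omega

/-- The main property of a valid certificate: no family of at most `K` bins holds the multiset. -/
theorem Swar.no_packing2 (C : Cert) (Z : Swar) (hC : Swar.Valid2 C Z) (k : ℕ) (hk : k ≤ C.K)
    (c : Fin k → ℕ → ℕ) (hc : ∀ j, lin C.sizes (c j) ≤ C.L)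
    (hsum : (fun i => ∑ j, c j i) = C.bF) : False := by
  have hy : ∀ j, lin C.duals (c j) ≤ C.D := by
    intro j
    have hleaf := C.enumR_sound C.sizes C.duals C.forms ⟨hC.hlen1, hC.hlen2⟩ hC.hpos
      hC.hratio C.L 0 [] hC.henum (c j) (hc j)
    rw [zero_add] at hleaf
    exact (C.leafS_sound _ _ hleaf).1
  have htot : ∑ j, lin C.duals (c j) = lin C.duals C.bF := by
    rw [← lin_sum, hsum]
  have hadd : ∑ j, (C.D - lin C.duals (c j)) + lin C.duals C.bF = k * C.D := by
    rw [← htot, ← Finset.sum_add_distrib]
    rw [Finset.sum_congr rfl (fun j _ => Nat.sub_add_cancel (hy j))]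
    simp
  have hlow := hC.hlow
  have hKpos := hC.hK
  have hkK : k = C.K := by
    by_contra hne
    have hlt : k ≤ C.K - 1 := by omega
    have : k * C.D ≤ (C.K - 1) * C.D := Nat.mul_le_mul_right _ hlt
    omega
  have hadd' : ∑ j, (C.D - lin C.duals (c j)) + lin C.duals C.bF = C.K * C.D := by
    rw [hadd, hkK]
  have hbud : ∑ j, (C.D - lin C.duals (c j)) = C.K * C.D - lin C.duals C.bF := by omega
  have h1 := Swar.pot_le2 C Z hC k c hc (by rw [hbud]; exact hC.hbudget)
  rw [hsum, hbud] at h1
  have := hC.hfinal
  omega

/-- The gap bound given by a certificate. -/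
theorem Swar.gap2 (C : Cert) (Z : Swar) (hC : Swar.Valid2 C Z) (pats : List (List ℕ)) (wts : List ℕ) (q V : ℕ)
    (hF : C.Frac pats wts q V) :
    ∃ a : List ℚ, (∀ x ∈ a, 0 < x ∧ x ≤ 1) ∧
      (C.K : ℝ) + 1 - (V : ℝ) / q ≤ (opt a : ℝ) - lp a := by
  classical
  let s : Fin C.sizes.length → ℕ := fun i => C.sizes.get i
  have hqpos : (0 : ℚ) < q := by exact_mod_cast hF.hq
  obtain ⟨a, ha1, ha2⟩ := gap_of_counts s C.L hF.hL
    (fun i => ⟨hC.hpos _ (List.get_mem _ _), hF.hle _ (List.get_mem _ _)⟩)
    (List.nodup_iff_injective_get.mp hF.hnodup)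
    (fun i => C.bF i) (fun i => hF.hcount i i.2) C.K
    (by
      intro k hk c hc1 hc2
      let cc : Fin k → ℕ → ℕ := fun j i => if h : i < C.sizes.length then c j ⟨i, h⟩ else 0
      have hcc : ∀ j (i : Fin C.sizes.length), cc j i = c j i := by
        intro j i
        simp [cc]
      refine Swar.no_packing2 C Z hC k hk cc ?_ ?_
      · intro j
        rw [lin_eq_sum]
        have := hc1 j
        simpa [hcc, s] using this
      · funext i
        by_cases hi : i < C.sizes.length
        · have := hc2 ⟨i, hi⟩
          simp only [cc, hi, dif_pos]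
          exact this
        · have h0 : C.bF i = 0 := by
            have hlen := hC.hlen3
            have hnone : C.counts[i]? = none := List.getElem?_eq_none (by omega)
            simp [Cert.bF, List.getD_eq_getElem?_getD, hnone]
          rw [h0]
          simp [cc, hi])
    pats.length (fun p i => (pats.get p).getD i 0)
    (by
      intro p
      have := hF.hpat (pats.get p) (List.get_mem _ _)
      rw [lin_eq_sum] at this
      exact this)
    (fun p => ((wts.getD p 0 : ℕ) : ℚ) / q)
    (fun p => by positivity)
    (by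
      intro i
      have h1 := hF.hcover i i.2
      rw [lin_map_eq_sum] at h1
      have h2 : ∑ p : Fin pats.length, (((pats.get p).getD i 0 : ℕ) : ℚ) * (((wts.getD p 0 : ℕ) : ℚ) / q)
          = (∑ p : Fin pats.length, (((wts.getD p 0 * (pats.get p).getD i 0 : ℕ)) : ℚ)) / q := by
        rw [Finset.sum_div]
        refine Finset.sum_congr rfl fun p _ => ?_
        push_cast
        ring
      rw [h2, le_div_iff₀ hqpos]
      exact_mod_cast h1)
  refine ⟨a, ha1, ?_⟩
  have hv : ∑ p : Fin pats.length, ((((wts.getD p 0 : ℕ) : ℚ) / q : ℚ) : ℝ) ≤ (V : ℝ) / q := by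
    have h1 := hF.hval
    rw [lin_replicate] at h1
    have hqR : (0 : ℝ) < q := by exact_mod_cast hF.hq
    have h2 : ∑ p : Fin pats.length, ((((wts.getD p 0 : ℕ) : ℚ) / q : ℚ) : ℝ)
        = (∑ p : Fin pats.length, ((wts.getD p 0 : ℕ) : ℝ)) / q := by
      rw [Finset.sum_div]
      refine Finset.sum_congr rfl fun p _ => ?_
      push_cast
      rfl
    rw [h2]
    apply div_le_div_of_nonneg_right _ hqR.le
    exact_mod_cast h1
  linarith

end Vale.Agent.Lib.P302
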