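import Vale.Agent.Lib.P302.Swar2

/-!
A packed potential with two closure properties: the potential does not grow by more than the cost
along a generating move, and every element of small potential is reached by a generating move from
an element of smaller potential. Together they give subadditivity, so a configuration only has to
be compared with the potential of its own class.
-/

namespace Vale.Agent.Lib.P302

/-- a binary tree of numbers -/
inductive NTree where
  | leaf (v : ℕ)
  | node (l r : NTree)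

/-- lookup by the binary digits of the index -/
def NTree.get : NTree → ℕ → ℕ
  | .leaf v, _ => v
  | .node l r, i => bif Nat.beq (i % 2) 0 then l.get (i / 2) else r.get (i / 2)

/-- The data of the packed potential. The group is a cyclic group of order `N` times the group
with the moduli `bs`; the potential is stored as one packed vector for each element of the second
factor. A generating move is a triple of cost, class vector and negated class vector. -/
structure Sw3 where
  /-- the entries have `k + 1` bits -/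
  k : ℕ
  /-- order of the cyclic factor -/
  N : ℕ
  /-- moduli of the other factor -/
  bs : List ℕ
  /-- the number with entries `1` -/
  O : ℕ
  /-- the number with entries `2 ^ k` -/
  H : ℕ
  /-- the packed vectors -/
  tree : NTree
  /-- the generating moves -/
  gens : List (ℕ × List ℕ × List ℕ)

/-- the packed vector belonging to an element of the second factor -/
def Sw3.slice (Z : Sw3) (b : List ℕ) : ℕ := Z.tree.get (encIdx Z.bs b 0)

/-- digit `i` of `T` in base `2 ^ (k + 1)`, computed by a shift -/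
def laneF (k T i : ℕ) : ℕ := (T >>> ((k + 1) * i)) % 2 ^ (k + 1)

theorem laneF_eq (k T i : ℕ) : laneF k T i = lane (2 ^ (k + 1)) T i := by
  unfold laneF lane
  rw [Nat.shiftRight_eq_div_pow, pow_mul]

/-- the potential of a reduced vector -/
def Sw3.pot (Z : Sw3) (g : List ℕ) : ℕ := laneF Z.k (Z.slice g.tail) (g.headD 0)

/-- the closure property of the potential for the generating moves -/
def Sw3.closureOK (Z : Sw3) : Bool :=
  allOf Z.bs fun b => Z.gens.all fun m =>
    swarOK Z.k Z.N Z.O Z.H m.1 (m.2.1.headD 0 % Z.N) (Z.slice b)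
      (Z.slice (redu Z.bs (vadd 1 b (redu Z.bs m.2.1.tail))))

/-- rewriting the potential of a sum of two vectors -/
theorem Sw3.pot_add (Z : Sw3) (a c : List ℕ) :
    Z.pot (redu (Z.N :: Z.bs) (vadd 1 a c)) =
      laneF Z.k (Z.slice (redu Z.bs (vadd 1 (redu Z.bs a.tail) (redu Z.bs c.tail))))
        ((a.headD 0 % Z.N + c.headD 0 % Z.N) % Z.N) := by
  have e : (a.headD 0 % Z.N + c.headD 0 % Z.N) % Z.N = (a.headD 0 + c.headD 0) % Z.N :=
    (Nat.add_mod _ _ _).symm
  rw [e, redu_add]
  simp only [Sw3.pot, redu, List.tail_cons, List.headD_cons]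
  rw [headD_vadd, tail_vadd]

theorem Sw3.pot_redu (Z : Sw3) (a : List ℕ) :
    Z.pot (redu (Z.N :: Z.bs) a) = laneF Z.k (Z.slice (redu Z.bs a.tail)) (a.headD 0 % Z.N) := by
  simp only [Sw3.pot, redu, List.tail_cons, List.headD_cons]

theorem Sw3.closure (Z : Sw3) (hN : 0 < Z.N) (hbs : ∀ d ∈ Z.bs, 0 < d)
    (hO : Z.O = ones (2 ^ (Z.k + 1)) Z.N) (hH : Z.H = 2 ^ Z.k * Z.O)
    (hcl : Z.closureOK = true) (m : ℕ × List ℕ × List ℕ) (hm : m ∈ Z.gens) (a : List ℕ) :
    Z.pot (redu (Z.N :: Z.bs) (vadd 1 a m.2.1)) ≤ Z.pot (redu (Z.N :: Z.bs) a) + m.1 := by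
  have h := allOf_sound Z.bs hbs _ hcl a.tail
  rw [List.all_eq_true] at h
  have h2 := h m hm
  rw [hH, hO] at h2
  have hx : a.headD 0 % Z.N < Z.N := Nat.mod_lt _ hN
  have hr : m.2.1.headD 0 % Z.N < Z.N := Nat.mod_lt _ hN
  have h3 := swarOK_sound hr h2 _ hx
  rw [← laneF_eq, ← laneF_eq] at h3
  rw [Z.pot_add, Z.pot_redu]
  exact h3

/-! ### Bits of the digits -/

theorem testBit_lane (k D x : ℕ) :
    (lane (2 ^ (k + 1)) D x).testBit k = D.testBit (k + (k + 1) * x) := by
  unfold lane
  rw [Nat.testBit_mod_two_pow, ← pow_mul, Nat.testBit_div_two_pow]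
  simp

theorem lane_mask (k n x : ℕ) (hx : x < n) :
    lane (2 ^ (k + 1)) (2 ^ k * ones (2 ^ (k + 1)) n) x = 2 ^ k := by
  induction n generalizing x with
  | zero => omega
  | succ n ih =>
    cases x with
    | zero =>
      rw [lane_zero, mask_mod]
    | succ x =>
      rw [lane_succ, mask_div]
      exact ih x (by omega)

theorem testBit_mask (k n x : ℕ) (hx : x < n) :
    (2 ^ k * ones (2 ^ (k + 1)) n).testBit (k + (k + 1) * x) = true := by
  rw [← testBit_lane, lane_mask k n x hx, Nat.testBit_two_pow]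
  simp

/-- a number without guard bits is at most the mask -/
theorem le_mask (k n R : ℕ) (hR : R < (2 ^ (k + 1)) ^ n)
    (h : R &&& (2 ^ k * ones (2 ^ (k + 1)) n) = 0) : R ≤ 2 ^ k * ones (2 ^ (k + 1)) n := by
  induction n generalizing R with
  | zero =>
    have : R = 0 := by simpa using hR
    omega
  | succ n ih =>
    set B := 2 ^ (k + 1) with hBdef
    set hh := 2 ^ k with hhdef
    have hBh : B = 2 * hh := by rw [hBdef, hhdef, pow_succ]; ring
    have hhpos : 0 < hh := by rw [hhdef]; positivity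
    have hBpos : 0 < B := by omega
    have hH : hh * ones B (n + 1) = hh + B * (hh * ones B n) := mask_succ k n
    have hmm : (hh * ones B (n + 1)) % B = hh := mask_mod k n
    have hmd : (hh * ones B (n + 1)) / B = hh * ones B n := mask_div k n
    have hr1 := and_mod_B0 (k := k) h
    have hr2 := and_div_B0 (k := k) h
    rw [← hBdef] at hr1 hr2
    rw [hmm] at hr1
    rw [hmd] at hr2
    have hrlt : R % B < hh := lt_of_and_eq_zero (Nat.mod_lt _ hBpos) hr1
    have hRd : R = R % B + B * (R / B) := (Nat.mod_add_div R B).symm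
    have h4 := ih (R / B) (Nat.div_lt_of_lt_mul (by rw [← pow_succ']; exact hR)) hr2
    have h5 : B * (R / B) ≤ B * (hh * ones B n) := Nat.mul_le_mul_left _ h4
    rw [hH]
    omega

/-- the digits of a difference with guard bits -/
theorem lane_diff (k n S R : ℕ) (hS : S < (2 ^ (k + 1)) ^ n) (hR : R < (2 ^ (k + 1)) ^ n)
    (h1 : S &&& (2 ^ k * ones (2 ^ (k + 1)) n) = 0)
    (h2 : R &&& (2 ^ k * ones (2 ^ (k + 1)) n) = 0) :
    ∀ i, i < n → lane (2 ^ (k + 1)) (S + 2 ^ k * ones (2 ^ (k + 1)) n - R) i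
      = lane (2 ^ (k + 1)) S i + 2 ^ k - lane (2 ^ (k + 1)) R i ∧
      lane (2 ^ (k + 1)) R i < 2 ^ k ∧ lane (2 ^ (k + 1)) S i < 2 ^ k := by
  induction n generalizing S R with
  | zero => intro i hi; omega
  | succ n ih =>
    intro i hi
    set B := 2 ^ (k + 1) with hBdef
    set h := 2 ^ k with hhdef
    have hBh : B = 2 * h := by rw [hBdef, hhdef, pow_succ]; ring
    have hhpos : 0 < h := by rw [hhdef]; positivity
    have hBpos : 0 < B := by omega
    set H' := h * ones B n with hH'
    have hH : h * ones B (n + 1) = h + B * H' := mask_succ k n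
    have hmm : (h * ones B (n + 1)) % B = h := mask_mod k n
    have hmd : (h * ones B (n + 1)) / B = H' := mask_div k n
    have hs1 := and_mod_B0 (k := k) h1
    have hs2 := and_div_B0 (k := k) h1
    have hr1 := and_mod_B0 (k := k) h2
    have hr2 := and_div_B0 (k := k) h2
    rw [← hBdef] at hs1 hs2 hr1 hr2
    rw [hmm] at hs1 hr1
    rw [hmd] at hs2 hr2
    have hslt : S % B < h := lt_of_and_eq_zero (Nat.mod_lt _ hBpos) hs1
    have hrlt : R % B < h := lt_of_and_eq_zero (Nat.mod_lt _ hBpos) hr1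
    have hSd : S = S % B + B * (S / B) := (Nat.mod_add_div S B).symm
    have hRd : R = R % B + B * (R / B) := (Nat.mod_add_div R B).symm
    have hS' : S / B < B ^ n := Nat.div_lt_of_lt_mul (by rw [← pow_succ']; exact hS)
    have hR' : R / B < B ^ n := Nat.div_lt_of_lt_mul (by rw [← pow_succ']; exact hR)
    have hRle : R / B ≤ H' := le_mask k n (R / B) hR' hr2
    set s := S % B
    set r := R % B
    set S' := S / B
    set R' := R / B
    obtain ⟨E, hE2⟩ : ∃ E, S' + H' = R' + E := ⟨S' + H' - R', by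
      have h8 : R' ≤ S' + H' := le_trans hRle (Nat.le_add_left _ _)
      exact (Nat.add_sub_of_le h8).symm⟩
    have hD : S + h * ones B (n + 1) - R = (s + h - r) + B * E := by
      rw [hH]
      have h7 : B * S' + B * H' = B * R' + B * E := by
        rw [← Nat.mul_add, ← Nat.mul_add, hE2]
      omega
    have hl : s + h - r < B := by omega
    have hDm : (S + h * ones B (n + 1) - R) % B = s + h - r := by
      rw [hD, Nat.add_mul_mod_self_left, Nat.mod_eq_of_lt hl]
    have hDd : (S + h * ones B (n + 1) - R) / B = E := by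
      rw [hD, Nat.add_mul_div_left _ _ hBpos, Nat.div_eq_of_lt hl, zero_add]
    have hE3 : E = S' + H' - R' := by omega
    cases i with
    | zero =>
      rw [lane_zero, lane_zero, lane_zero, hDm]
      exact ⟨rfl, hrlt, hslt⟩
    | succ i =>
      rw [lane_succ, lane_succ, lane_succ, hDd, hE3]
      exact ih S' R' hS' hR' hs2 hr2 i (by omega)

/-- the rotation of a packed vector by `r` entries -/
def rotF (k N r T' : ℕ) : ℕ :=
  ((T' + T' <<< ((k + 1) * N)) >>> ((k + 1) * r)) &&& (2 ^ ((k + 1) * N) - 1)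

theorem rotF_eq (k N r T' : ℕ) :
    rotF k N r T' = ((T' + T' * (2 ^ (k + 1)) ^ N) / (2 ^ (k + 1)) ^ r) % (2 ^ (k + 1)) ^ N := by
  unfold rotF
  rw [Nat.and_two_pow_sub_one_eq_mod, Nat.shiftRight_eq_div_pow, Nat.shiftLeft_eq]
  have hpow : 2 ^ ((k + 1) * N) = (2 ^ (k + 1)) ^ N := by rw [pow_mul]
  have hpowr : 2 ^ ((k + 1) * r) = (2 ^ (k + 1)) ^ r := by rw [pow_mul]
  rw [hpow, hpowr]

/-- the guard bits show where an entry of `T` is at least the rotated entry of `T'` plus `c` -/
def backE (k N O H c r T T' : ℕ) : ℕ :=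
  (T + H - (rotF k N r T' + c * O)) &&& H

/-- the side conditions of `backE` -/
def backV (k N O H c r T T' : ℕ) : Bool :=
  Nat.blt c (2 ^ k) && Nat.blt T (2 ^ ((k + 1) * N)) && Nat.blt T' (2 ^ ((k + 1) * N)) &&
    Nat.blt (rotF k N r T' + c * O) (2 ^ ((k + 1) * N)) &&
    Nat.beq (T &&& H) 0 && Nat.beq (rotF k N r T' &&& H) 0 &&
    Nat.beq ((rotF k N r T' + c * O) &&& H) 0

theorem backE_sound {k N c r T T' : ℕ} (hr : r < N)
    (hv : backV k N (ones (2 ^ (k + 1)) N) (2 ^ k * ones (2 ^ (k + 1)) N) c r T T' = true)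
    (x : ℕ) (hx : x < N)
    (hb : (backE k N (ones (2 ^ (k + 1)) N) (2 ^ k * ones (2 ^ (k + 1)) N) c r T T').testBit
      (k + (k + 1) * x) = true) :
    laneF k T' ((x + r) % N) + c ≤ laneF k T x := by
  simp only [backV, Bool.and_eq_true, Nat.blt_eq] at hv
  obtain ⟨⟨⟨⟨⟨⟨hc, hT⟩, hT'⟩, hR1⟩, hTH⟩, hRH⟩, hR1H⟩ := hv
  have hBpos : 0 < 2 ^ (k + 1) := by positivity
  have hpow : 2 ^ ((k + 1) * N) = (2 ^ (k + 1)) ^ N := by rw [pow_mul]
  rw [hpow] at hT hT' hR1
  have hT1 := Nat.eq_of_beq_eq_true hTH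
  have hR2 := Nat.eq_of_beq_eq_true hRH
  have hR3 := Nat.eq_of_beq_eq_true hR1H
  unfold backE at hb
  rw [Nat.testBit_and, Bool.and_eq_true] at hb
  have hd := hb.1
  rw [← testBit_lane] at hd
  have hl := lane_diff k N T _ hT hR1 hT1 hR3 x hx
  rw [hl.1] at hd
  have hge := Nat.ge_two_pow_of_testBit hd
  have hadd := lane_add k N (rotF k N r T') c hc hR2 x hx
  have hrot : lane (2 ^ (k + 1)) (rotF k N r T') x = lane (2 ^ (k + 1)) T' ((x + r) % N) := by
    rw [rotF_eq]
    exact lane_rot hBpos hT' hr hx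
  rw [laneF_eq, laneF_eq, ← hrot, ← hadd]
  have h3 := hl.2.1
  omega

/-- the guard bits show where an entry of `T` is at most `W` -/
def backZ (O H W T : ℕ) : ℕ := (W * O + H - T) &&& H

theorem backZ_bit {k N W T : ℕ} (hW : W < 2 ^ k)
    (hS : W * ones (2 ^ (k + 1)) N < (2 ^ (k + 1)) ^ N)
    (hSH : (W * ones (2 ^ (k + 1)) N) &&& (2 ^ k * ones (2 ^ (k + 1)) N) = 0)
    (hT : T < (2 ^ (k + 1)) ^ N) (hTH : T &&& (2 ^ k * ones (2 ^ (k + 1)) N) = 0)
    (x : ℕ) (hx : x < N) (hle : laneF k T x ≤ W) :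
    (backZ (ones (2 ^ (k + 1)) N) (2 ^ k * ones (2 ^ (k + 1)) N) W T).testBit
      (k + (k + 1) * x) = true := by
  unfold backZ
  rw [Nat.testBit_and, Bool.and_eq_true]
  refine ⟨?_, testBit_mask k N x hx⟩
  rw [← testBit_lane]
  have hl := lane_diff k N _ T hS hT hSH hTH x hx
  rw [hl.1]
  have h0 : lane (2 ^ (k + 1)) (0 + W * ones (2 ^ (k + 1)) N) x
      = lane (2 ^ (k + 1)) 0 x + W :=
    lane_add k N 0 W hW (by simp) x hx
  rw [zero_add] at h0
  have h00 : lane (2 ^ (k + 1)) 0 x = 0 := by simp [lane]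
  rw [h00, zero_add] at h0
  rw [h0]
  rw [laneF_eq] at hle
  apply Nat.testBit_of_two_pow_le_and_two_pow_add_one_gt
  · omega
  · have : 2 ^ (k + 1) = 2 * 2 ^ k := by rw [pow_succ]; ring
    omega

/-- the union of the guard bits of all generating moves -/
def Sw3.backU (Z : Sw3) (b : List ℕ) : List (ℕ × List ℕ × List ℕ) → ℕ
  | [] => 0
  | m :: ms =>
    backE Z.k Z.N Z.O Z.H m.1 (m.2.2.headD 0 % Z.N) (Z.slice b)
      (Z.slice (redu Z.bs (vadd 1 b (redu Z.bs m.2.2.tail)))) ||| Z.backU b ms

theorem Sw3.backU_bit (Z : Sw3) (b : List ℕ) (ms : List (ℕ × List ℕ × List ℕ)) (p : ℕ)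
    (h : (Z.backU b ms).testBit p = true) :
    ∃ m ∈ ms, (backE Z.k Z.N Z.O Z.H m.1 (m.2.2.headD 0 % Z.N) (Z.slice b)
      (Z.slice (redu Z.bs (vadd 1 b (redu Z.bs m.2.2.tail))))).testBit p = true := by
  induction ms with
  | nil => simp [Sw3.backU] at h
  | cons k ks ih =>
    simp only [Sw3.backU, Nat.testBit_or, Bool.or_eq_true] at h
    rcases h with h | h
    · exact ⟨k, by simp, h⟩
    · obtain ⟨m, hm, hm2⟩ := ih h
      exact ⟨m, by simp [hm], hm2⟩

/-- the exception for the zero element -/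
def Sw3.backX (Z : Sw3) (b : List ℕ) : ℕ :=
  bif Nat.beq (encIdx Z.bs b 0) 0 then 2 ^ Z.k else 0

/-- every element of potential at most `W` is the zero element or is reached by a generating
move from an element of smaller potential -/
def Sw3.backOK (Z : Sw3) (W : ℕ) : Bool :=
  allOf Z.bs fun b =>
    Nat.blt (Z.slice b) (2 ^ ((Z.k + 1) * Z.N)) && Nat.beq (Z.slice b &&& Z.H) 0 &&
    Z.gens.all (fun m =>
      backV Z.k Z.N Z.O Z.H m.1 (m.2.2.headD 0 % Z.N) (Z.slice b)
        (Z.slice (redu Z.bs (vadd 1 b (redu Z.bs m.2.2.tail))))) &&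
    Nat.beq (backZ Z.O Z.H W (Z.slice b) &&& (Z.backU b Z.gens ||| Z.backX b))
      (backZ Z.O Z.H W (Z.slice b))

theorem encIdx_redu (bs y : List ℕ) (acc : ℕ) (hbs : ∀ d ∈ bs, 0 < d)
    (h : encIdx bs (redu bs y) acc = 0) : acc = 0 ∧ redu bs y = redu bs [] := by
  induction bs generalizing y acc with
  | nil =>
    simpa [encIdx, redu] using h
  | cons d ds ih =>
    simp only [redu, encIdx, List.tail_cons, List.headD_cons] at h
    have hd : 0 < d := hbs d (by simp)
    obtain ⟨h1, h2⟩ := ih y.tail _ (fun e he => hbs e (by simp [he])) h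
    have h3 : acc * d = 0 := by omega
    have h4 : y.headD 0 % d = 0 := by omega
    have h5 : acc = 0 := by
      rcases Nat.mul_eq_zero.mp h3 with h6 | h6
      · exact h6
      · omega
    refine ⟨h5, ?_⟩
    simp only [redu, h2, h4, List.headD_nil, Nat.zero_mod, List.tail_nil]

theorem Sw3.back (Z : Sw3) (W : ℕ) (hN : 0 < Z.N) (hbs : ∀ d ∈ Z.bs, 0 < d)
    (hO : Z.O = ones (2 ^ (Z.k + 1)) Z.N) (hH : Z.H = 2 ^ Z.k * Z.O)
    (hW : W < 2 ^ Z.k) (hS : W * Z.O < (2 ^ (Z.k + 1)) ^ Z.N) (hSH : (W * Z.O) &&& Z.H = 0)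
    (hb : Z.backOK W = true) (a : List ℕ)
    (hle : Z.pot (redu (Z.N :: Z.bs) a) ≤ W) :
    redu (Z.N :: Z.bs) a = redu (Z.N :: Z.bs) [] ∨
      ∃ m ∈ Z.gens, Z.pot (redu (Z.N :: Z.bs) (vadd 1 a m.2.2)) + m.1 ≤
        Z.pot (redu (Z.N :: Z.bs) a) := by
  have h := allOf_sound Z.bs hbs _ hb a.tail
  simp only [Sw3.backOK, Bool.and_eq_true, Nat.blt_eq, List.all_eq_true] at h
  obtain ⟨⟨⟨h1, h2⟩, h3⟩, h4⟩ := h
  set b := redu Z.bs a.tail with hbdef
  have hx : a.headD 0 % Z.N < Z.N := Nat.mod_lt _ hN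
  set x := a.headD 0 % Z.N with hxdef
  rw [Z.pot_redu] at hle
  have hpow : 2 ^ ((Z.k + 1) * Z.N) = (2 ^ (Z.k + 1)) ^ Z.N := by rw [pow_mul]
  rw [hpow] at h1
  rw [hH, hO] at h2 h4
  rw [hO, hH, hO] at hSH
  rw [hO] at hS
  have h2' := Nat.eq_of_beq_eq_true h2
  have h4' := Nat.eq_of_beq_eq_true h4
  have hz := backZ_bit hW hS hSH h1 h2' x hx hle
  rw [hH, hO] at h3
  have hu : (Z.backU b Z.gens ||| Z.backX b).testBit (Z.k + (Z.k + 1) * x) = true := by
    have := congrArg (fun n => n.testBit (Z.k + (Z.k + 1) * x)) h4'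
    simp only [Nat.testBit_and] at this
    rw [hz] at this
    simpa using this
  rw [Nat.testBit_or, Bool.or_eq_true] at hu
  rcases hu with hu | hu
  · right
    obtain ⟨m, hm, hm2⟩ := Z.backU_bit b _ _ hu
    refine ⟨m, hm, ?_⟩
    have hr : m.2.2.headD 0 % Z.N < Z.N := Nat.mod_lt _ hN
    have hv := h3 m hm
    rw [hH, hO] at hm2
    have h5 := backE_sound hr hv x hx hm2
    rw [Z.pot_add, Z.pot_redu]
    exact h5
  · left
    unfold Sw3.backX at hu
    cases he : Nat.beq (encIdx Z.bs b 0) 0 with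
    | false =>
      rw [he] at hu
      simp at hu
    | true =>
      rw [he] at hu
      have he' := Nat.eq_of_beq_eq_true he
      simp only [cond_true, Nat.testBit_two_pow, decide_eq_true_eq] at hu
      have hx0 : x = 0 := by
        have : (Z.k + 1) * x = 0 := by omega
        rcases Nat.mul_eq_zero.mp this with h6 | h6
        · omega
        · exact h6
      have hb0 := (encIdx_redu Z.bs a.tail 0 hbs he').2
      simp only [redu, List.headD_nil, Nat.zero_mod, List.tail_nil]
      rw [← hxdef, hx0, ← hbdef, ← hbdef] at *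
      rw [hb0]

/-- adding a vector with zero reduction changes nothing -/
theorem redu_add_zero (ds a y : List ℕ) (h : redu ds y = redu ds []) :
    redu ds (vadd 1 a y) = redu ds a := by
  have h1 : redu ds (vadd 1 a y) = redu ds (vadd 1 a []) := by
    rw [← redu_add, h, redu_add]
  rw [h1]
  apply redu_congr
  intro j
  rw [toF_vadd]
  simp [toF]

/-- subadditivity of the potential -/
theorem Sw3.subadd (Z : Sw3) (W : ℕ) (hN : 0 < Z.N) (hbs : ∀ d ∈ Z.bs, 0 < d)
    (hO : Z.O = ones (2 ^ (Z.k + 1)) Z.N) (hH : Z.H = 2 ^ Z.k * Z.O)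
    (hW : W < 2 ^ Z.k) (hS : W * Z.O < (2 ^ (Z.k + 1)) ^ Z.N) (hSH : (W * Z.O) &&& Z.H = 0)
    (hcl : Z.closureOK = true) (hb : Z.backOK W = true)
    (hg : Z.gens.all (fun m => Nat.blt 0 m.1 &&
      listEq (redu (Z.N :: Z.bs) (vadd 1 m.2.2 m.2.1)) (redu (Z.N :: Z.bs) [])) = true)
    (n : ℕ) : ∀ h : List ℕ, Z.pot (redu (Z.N :: Z.bs) h) = n → n ≤ W → ∀ a : List ℕ,
      Z.pot (redu (Z.N :: Z.bs) (vadd 1 a h)) ≤ Z.pot (redu (Z.N :: Z.bs) a) + n := by
  induction n using Nat.strong_induction_on with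
  | _ n ih =>
    intro h hn hle a
    rcases Z.back W hN hbs hO hH hW hS hSH hb h (by omega) with h0 | ⟨m, hm, hm2⟩
    · rw [redu_add_zero _ _ _ h0]
      omega
    · rw [List.all_eq_true] at hg
      have hgm := hg m hm
      simp only [Bool.and_eq_true, Nat.blt_eq] at hgm
      have hc : 0 < m.1 := hgm.1
      have hz := listEq_sound _ _ hgm.2
      set n' := Z.pot (redu (Z.N :: Z.bs) (vadd 1 h m.2.2)) with hn'
      have h1 := ih n' (by omega) (vadd 1 h m.2.2) rfl (by omega) a
      have h2 := Z.closure hN hbs hO hH hcl m hm (vadd 1 a (vadd 1 h m.2.2))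
      have e : redu (Z.N :: Z.bs) (vadd 1 (vadd 1 a (vadd 1 h m.2.2)) m.2.1)
          = redu (Z.N :: Z.bs) (vadd 1 a h) := by
        have e1 : redu (Z.N :: Z.bs) (vadd 1 (vadd 1 a (vadd 1 h m.2.2)) m.2.1)
            = redu (Z.N :: Z.bs) (vadd 1 (vadd 1 a h) (vadd 1 m.2.2 m.2.1)) := by
          apply redu_congr
          intro j
          simp only [toF_vadd]
          ring
        rw [e1, redu_add_zero _ _ _ hz]
      rw [e] at h2
      omega

/-! ### The enumeration -/

/-- the test at a leaf of the enumeration of configurations -/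
def Sw3.leafP (Z : Sw3) (C : Cert) (y : ℕ) (acc : List ℕ) : Bool :=
  Nat.ble y C.D &&
    (Nat.ble (C.W + 1) (C.D - y) ||
      forceL (redu C.ds acc) fun r => Nat.ble (Z.pot r) (C.D - y))

theorem Sw3.leafP_sound (Z : Sw3) (C : Cert) (y : ℕ) (acc : List ℕ) (h : Z.leafP C y acc = true) :
    y ≤ C.D ∧ (C.W + 1 ≤ C.D - y ∨ Z.pot (redu C.ds acc) ≤ C.D - y) := by
  simp only [Sw3.leafP, Bool.and_eq_true, Bool.or_eq_true, forceL_eq] at h
  refine ⟨Nat.le_of_ble_eq_true h.1, ?_⟩
  rcases h.2 with h2 | h2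
  · exact Or.inl (Nat.le_of_ble_eq_true h2)
  · exact Or.inr (Nat.le_of_ble_eq_true h2)

/-- enumeration of all configurations; a branch is cut off when the ratio of the current type shows
that its waste exceeds the budget -/
def Sw3.enumP (Z : Sw3) (C : Cert) : List ℕ → List ℕ → List (List ℕ) → ℕ → ℕ → List ℕ → Bool
  | [], _, _, _, y, acc => Z.leafP C y acc
  | s :: ss, yy :: ys, f :: fs, rem, y, acc =>
    Nat.ble ((y + C.W + 1) * s + rem * yy) (C.D * s) ||
      (Z.enumP C ss ys fs rem y acc &&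
        (List.range (rem / s)).all fun k =>
          strict (rem - (k + 1) * s) fun rem' => strict (y + (k + 1) * yy) fun y' =>
            forceL (vadd (k + 1) acc f) fun acc' => Z.enumP C ss ys fs rem' y' acc')
  | _ :: _, _, _, _, _, _ => false

theorem Sw3.leafP_congr (Z : Sw3) (C : Cert) (y : ℕ) (a b : List ℕ)
    (h : ∀ j, toF a j = toF b j) : Z.leafP C y a = Z.leafP C y b := by
  simp only [Sw3.leafP, forceL_eq]
  rw [redu_congr C.ds a b h]

/-- Soundness of the enumeration. -/
theorem Sw3.enumP_sound (Z : Sw3) (C : Cert) (ss ys : List ℕ) (fs : List (List ℕ))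
    (hlen : ss.length = ys.length ∧ ss.length = fs.length)
    (hpos : ∀ s ∈ ss, 0 < s)
    (hratio : ratioAll ss ys = true)
    (rem y : ℕ) (acc : List ℕ) (h : Z.enumP C ss ys fs rem y acc = true)
    (c : ℕ → ℕ) (hc : lin ss c ≤ rem) :
    Z.leafP C (y + lin ys c) (accOf fs c acc) = true := by
  induction ss generalizing ys fs rem y acc c with
  | nil =>
    obtain ⟨h1, h2⟩ := hlen
    have hy : ys = [] := List.length_eq_zero_iff.mp h1.symm
    have hf : fs = [] := List.length_eq_zero_iff.mp h2.symm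
    subst hy; subst hf
    simpa [Sw3.enumP, lin, accOf] using h
  | cons s ss ih =>
    obtain ⟨h1, h2⟩ := hlen
    cases ys with
    | nil => simp at h1
    | cons yy ys =>
      cases fs with
      | nil => simp at h2
      | cons f fs =>
        simp only [ratioAll, Bool.and_eq_true] at hratio
        obtain ⟨hr0, hr1⟩ := hratio
        have hs : 0 < s := hpos s (by simp)
        simp only [Sw3.enumP, Bool.or_eq_true, Bool.and_eq_true, List.all_eq_true, List.mem_range,
          strict_eq, forceL_eq] at h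
        rcases h with h | ⟨h0, h⟩
        · -- the branch is cut off
          have hb := Nat.le_of_ble_eq_true h
          have hr := ratioOK_sound _ _ _ _ hr0 c
          have hr2 : lin (s :: ss) c * yy ≤ rem * yy := Nat.mul_le_mul_right _ hc
          have h3 : (y + lin (yy :: ys) c + C.W + 1) * s ≤ C.D * s := by
            calc (y + lin (yy :: ys) c + C.W + 1) * s
                = (y + C.W + 1) * s + lin (yy :: ys) c * s := by ring
              _ ≤ (y + C.W + 1) * s + rem * yy := by omega
              _ ≤ C.D * s := hb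
          have hlt : y + lin (yy :: ys) c + C.W + 1 ≤ C.D := Nat.le_of_mul_le_mul_right h3 hs
          simp only [Sw3.leafP, Bool.and_eq_true, Bool.or_eq_true]
          refine ⟨Nat.ble_eq_true_of_le (by omega), Or.inl (Nat.ble_eq_true_of_le (by omega))⟩
        · have hc0 : c 0 * s + lin ss (fun i => c (i + 1)) ≤ rem := hc
          have hih := fun (rem' y' : ℕ) (acc' : List ℕ) (h' : Z.enumP C ss ys fs rem' y' acc' = true)
              (hc' : lin ss (fun i => c (i + 1)) ≤ rem') =>
            ih ys fs ⟨by simpa using h1, by simpa using h2⟩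
              (fun t ht => hpos t (by simp [ht])) hr1 rem' y' acc' h' (fun i => c (i + 1)) hc'
          simp only [accOf, lin]
          cases hk0 : c 0 with
          | zero =>
            have h3 := hih rem y acc h0 (by omega)
            have e : y + (0 * yy + lin ys fun i => c (i + 1))
                = y + lin ys fun i => c (i + 1) := by ring
            rw [e, Z.leafP_congr C _ _ (accOf fs (fun i => c (i + 1)) acc)]
            · exact h3
            · intro j
              rw [toF_accOf, toF_accOf, toF_vadd]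
              simp
          | succ k =>
            have hk : k < rem / s := by
              have : k + 1 ≤ rem / s := by
                rw [Nat.le_div_iff_mul_le hs]
                rw [hk0] at hc0
                omega
              omega
            have h4 := h k hk
            rw [hk0] at hc0
            have hm : (k + 1) * s + lin ss (fun i => c (i + 1)) ≤ rem := hc0
            have h3 := hih _ _ _ h4 (by omega)
            have e : y + ((k + 1) * yy + lin ys fun i => c (i + 1))
                = y + (k + 1) * yy + lin ys fun i => c (i + 1) := by ring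
            rw [e]
            exact h3

/-- all the checks of the lower bound on the number of bins -/
structure Sw3.Valid (C : Cert) (Z : Sw3) : Prop where
  hlen1 : C.sizes.length = C.duals.length
  hlen2 : C.sizes.length = C.forms.length
  hlen3 : C.sizes.length = C.counts.length
  hpos : ∀ s ∈ C.sizes, 0 < s
  hratio : ratioAll C.sizes C.duals = true
  henum : Z.enumP C C.sizes C.duals C.forms C.L 0 [] = true
  hds : C.ds = Z.N :: Z.bs
  hN : 0 < Z.N
  hbs : ∀ d ∈ Z.bs, 0 < d
  hO : Z.O = ones (2 ^ (Z.k + 1)) Z.N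
  hH : Z.H = 2 ^ Z.k * Z.O
  hW : C.W < 2 ^ Z.k
  hS : C.W * Z.O < (2 ^ (Z.k + 1)) ^ Z.N
  hSH : (C.W * Z.O) &&& Z.H = 0
  hclosure : Z.closureOK = true
  hback : Z.backOK C.W = true
  hgens : Z.gens.all (fun m => Nat.blt 0 m.1 &&
      listEq (redu (Z.N :: Z.bs) (vadd 1 m.2.2 m.2.1)) (redu (Z.N :: Z.bs) [])) = true
  hpot0 : Z.pot (redu C.ds []) = 0
  hlow : (C.K - 1) * C.D < lin C.duals C.bF
  hup : lin C.duals C.bF ≤ C.K * C.D
  hbudget : C.K * C.D - lin C.duals C.bF ≤ C.W
  hfinal : C.K * C.D - lin C.duals C.bF < Z.pot (redu C.ds (accOf C.forms C.bF []))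
  hK : 0 < C.K

/-- the potential along a family of bins -/
theorem Sw3.pot_le (C : Cert) (Z : Sw3) (hC : Sw3.Valid C Z) (k : ℕ) (c : Fin k → ℕ → ℕ)
    (hc : ∀ j, lin C.sizes (c j) ≤ C.L)
    (hw : ∑ j, (C.D - lin C.duals (c j)) ≤ C.W) :
    Z.pot (redu C.ds (accOf C.forms (fun i => ∑ j, c j i) [])) ≤ ∑ j, (C.D - lin C.duals (c j)) := by
  induction k with
  | zero =>
    have : redu C.ds (accOf C.forms (fun i => ∑ j : Fin 0, c j i) []) = redu C.ds [] := by
      apply redu_congr
      intro j
      rw [toF_accOf]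
      simp [lin_zero, toF]
    rw [this, hC.hpot0]
    simp
  | succ k ih =>
    rw [Fin.sum_univ_succ] at hw ⊢
    have ih' := ih (fun j => c j.succ) (fun j => hc j.succ) (by omega)
    have hleaf := Z.enumP_sound C C.sizes C.duals C.forms ⟨hC.hlen1, hC.hlen2⟩ hC.hpos
      hC.hratio C.L 0 [] hC.henum (c 0) (hc 0)
    rw [zero_add] at hleaf
    obtain ⟨-, hleaf⟩ := Z.leafP_sound C _ _ hleaf
    rcases hleaf with hleaf | hleaf
    · omega
    · set x := accOf C.forms (fun i => ∑ j : Fin k, c j.succ i) [] with hx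
      set A := accOf C.forms (c 0) [] with hA
      have hsub := Z.subadd C.W hC.hN hC.hbs hC.hO hC.hH hC.hW hC.hS hC.hSH hC.hclosure hC.hback
        hC.hgens _ A rfl
      rw [← hC.hds] at hsub
      have h2 := hsub (by omega) x
      have e2 : redu C.ds (accOf C.forms (fun i => ∑ j : Fin (k + 1), c j i) [])
          = redu C.ds (vadd 1 x A) := by
        apply redu_congr
        intro j
        rw [toF_accOf, toF_vadd, hx, hA, toF_accOf, toF_accOf]
        simp only [Fin.sum_univ_succ]
        have h0 : toF [] j = 0 := by simp [toF]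
        rw [h0, lin_add (List.map (fun f => toF f j) C.forms) (c 0) (fun i => ∑ l : Fin k, c l.succ i)]
        ring
      rw [e2]
      omega

/-- The main property of a valid certificate: no family of at most `K` bins holds the multiset. -/
theorem Sw3.no_packing (C : Cert) (Z : Sw3) (hC : Sw3.Valid C Z) (k : ℕ) (hk : k ≤ C.K)
    (c : Fin k → ℕ → ℕ) (hc : ∀ j, lin C.sizes (c j) ≤ C.L)
    (hsum : (fun i => ∑ j, c j i) = C.bF) : False := by
  have hy : ∀ j, lin C.duals (c j) ≤ C.D := by
    intro j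
    have hleaf := Z.enumP_sound C C.sizes C.duals C.forms ⟨hC.hlen1, hC.hlen2⟩ hC.hpos
      hC.hratio C.L 0 [] hC.henum (c j) (hc j)
    rw [zero_add] at hleaf
    exact (Z.leafP_sound C _ _ hleaf).1
  have htot : ∑ j, lin C.duals (c j) = lin C.duals C.bF := by
    rw [← lin_sum, hsum]
  have hadd : ∑ j, (C.D - lin C.duals (c j)) + lin C.duals C.bF = k * C.D := by
    rw [← htot, ← Finset.sum_add_distrib]
    rw [Finset.sum_congr rfl (fun j _ => Nat.sub_add_cancel (hy j))]
    simp
  have hlow := hC.hlow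
  have hKpos := hC.hK
  have hkK : k = C.K := by
    by_contra hne
    have hlt : k ≤ C.K - 1 := by omega
    have : k * C.D ≤ (C.K - 1) * C.D := Nat.mul_le_mul_right _ hlt
    omega
  have hadd' : ∑ j, (C.D - lin C.duals (c j)) + lin C.duals C.bF = C.K * C.D := by
    rw [hadd, hkK]
  have hbud : ∑ j, (C.D - lin C.duals (c j)) = C.K * C.D - lin C.duals C.bF := by omega
  have h1 := Sw3.pot_le C Z hC k c hc (by rw [hbud]; exact hC.hbudget)
  rw [hsum, hbud] at h1
  have := hC.hfinal
  omega

/-- The gap bound given by a certificate. -/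
theorem Sw3.gap (C : Cert) (Z : Sw3) (hC : Sw3.Valid C Z) (pats : List (List ℕ)) (wts : List ℕ) (q V : ℕ)
    (hF : C.Frac pats wts q V) :
    ∃ a : List ℚ, (∀ x ∈ a, 0 < x ∧ x ≤ 1) ∧
      (C.K : ℝ) + 1 - (V : ℝ) / q ≤ (opt a : ℝ) - lp a := by
  classical
  let s : Fin C.sizes.length → ℕ := fun i => C.sizes.get i
  have hqpos : (0 : ℚ) < q := by exact_mod_cast hF.hq
  obtain ⟨a, ha1, ha2⟩ := gap_of_counts s C.L hF.hL
    (fun i => ⟨hC.hpos _ (List.get_mem _ _), hF.hle _ (List.get_mem _ _)⟩)
    (List.nodup_iff_injective_get.mp hF.hnodup)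
    (fun i => C.bF i) (fun i => hF.hcount i i.2) C.K
    (by
      intro k hk c hc1 hc2
      let cc : Fin k → ℕ → ℕ := fun j i => if h : i < C.sizes.length then c j ⟨i, h⟩ else 0
      have hcc : ∀ j (i : Fin C.sizes.length), cc j i = c j i := by
        intro j i
        simp [cc]
      refine Sw3.no_packing C Z hC k hk cc ?_ ?_
      · intro j
        rw [lin_eq_sum]
        have := hc1 j
        simpa [hcc, s] using this
      · funext i
        by_cases hi : i < C.sizes.length
        · have := hc2 ⟨i, hi⟩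
          simp only [cc, hi, dif_pos]
          exact this
        · have h0 : C.bF i = 0 := by
            have hlen := hC.hlen3
            have hnone : C.counts[i]? = none := List.getElem?_eq_none (by omega)
            simp [Cert.bF, List.getD_eq_getElem?_getD, hnone]
          rw [h0]
          simp [cc, hi])
    pats.length (fun p i => (pats.get p).getD i 0)
    (by
      intro p
      have := hF.hpat (pats.get p) (List.get_mem _ _)
      rw [lin_eq_sum] at this
      exact this)
    (fun p => ((wts.getD p 0 : ℕ) : ℚ) / q)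
    (fun p => by positivity)
    (by
      intro i
      have h1 := hF.hcover i i.2
      rw [lin_map_eq_sum] at h1
      have h2 : ∑ p : Fin pats.length, (((pats.get p).getD i 0 : ℕ) : ℚ) * (((wts.getD p 0 : ℕ) : ℚ) / q)
          = (∑ p : Fin pats.length, (((wts.getD p 0 * (pats.get p).getD i 0 : ℕ)) : ℚ)) / q := by
        rw [Finset.sum_div]
        refine Finset.sum_congr rfl fun p _ => ?_
        push_cast
        ring
      rw [h2, le_div_iff₀ hqpos]
      exact_mod_cast h1)
  refine ⟨a, ha1, ?_⟩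
  have hv : ∑ p : Fin pats.length, ((((wts.getD p 0 : ℕ) : ℚ) / q : ℚ) : ℝ) ≤ (V : ℝ) / q := by
    have h1 := hF.hval
    rw [lin_replicate] at h1
    have hqR : (0 : ℝ) < q := by exact_mod_cast hF.hq
    have h2 : ∑ p : Fin pats.length, ((((wts.getD p 0 : ℕ) : ℚ) / q : ℚ) : ℝ)
        = (∑ p : Fin pats.length, ((wts.getD p 0 : ℕ) : ℝ)) / q := by
      rw [Finset.sum_div]
      refine Finset.sum_congr rfl fun p _ => ?_
      push_cast
      rfl
    rw [h2]
    apply div_le_div_of_nonneg_right _ hqR.le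
    exact_mod_cast h1
  linarith

end Vale.Agent.Lib.P302
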